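import Vale.Agent.P342.Arc
import Vale.Agent.Lib.PCP.Basic

/-!
Directed graphs given by a list of vertices and a list of arcs; the arc graph.
-/

namespace Vale.Agent.N342

open Finset Vale.Agent.Lib.PCP Vale.Agent.Lib.PolyTime Vale.Agent.P342
open scoped BigOperators

/-- A list of vertices and a list of arcs; loops are allowed. -/
abbrev LG (V : Type) : Type := List V × List (V × V)

section Basic

variable {V : Type}

/-- All pairs of members of two lists. -/
def prs {α β : Type} (l : List α) (l' : List β) : List (α × β) :=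
  l.flatMap fun a => l'.map fun b => (a, b)

theorem mem_prs {α β : Type} {l : List α} {l' : List β} {p : α × β} :
    p ∈ prs l l' ↔ p.1 ∈ l ∧ p.2 ∈ l' := List.mem_product

theorem nodup_prs {α β : Type} {l : List α} {l' : List β} (h : l.Nodup) (h' : l'.Nodup) :
    (prs l l').Nodup := h.product h'

theorem length_prs {α β : Type} (l : List α) (l' : List β) :
    (prs l l').length = l.length * l'.length := List.length_product l l'

theorem PT_prs {α β γ : Type} [Enc α] [Enc β] [Enc γ] {l : γ → List α} {l' : γ → List β}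
    (h : PT ∅ l) (h' : PT ∅ l') : PT ∅ fun a => prs (l a) (l' a) :=
  PT.flatMap (f := fun a x => (l' a).map fun b => (x, b)) h
    (PT.map (f := fun (p : γ × α) b => (p.2, b)) (h'.comp PT.fst') (PT.fst'.snd.pair PT.snd'))

/-- The graph with a given list of vertices and a given test for arcs. -/
def mk (W : List V) (P : V → V → Bool) : LG V := (W, (prs W W).filter fun e => P e.1 e.2)

theorem mem_mk {W : List V} {P : V → V → Bool} {e : V × V} :
    e ∈ (mk W P).2 ↔ e.1 ∈ W ∧ e.2 ∈ W ∧ P e.1 e.2 = true := by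
  simp [mk, mem_prs, and_assoc]

theorem PT_mk {α : Type} [Enc α] [Enc V] {W : α → List V} {P : α → V → V → Bool} (hW : PT ∅ W)
    (hP : PT ∅ fun z : α × V × V => P z.1 z.2.1 z.2.2) : PT ∅ fun a => mk (W a) (P a) :=
  hW.pair (PT.filter (f := fun a (e : V × V) => P a e.1 e.2) (PT_prs hW hW) hP)

/-- No repetitions, and the arcs join vertices of the list. -/
structure WF (G : LG V) : Prop where
  nd1 : G.1.Nodup
  nd2 : G.2.Nodup
  mem : ∀ e ∈ G.2, e.1 ∈ G.1 ∧ e.2 ∈ G.1

theorem wf_mk {W : List V} (h : W.Nodup) (P : V → V → Bool) : WF (mk W P) :=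
  ⟨h, (nodup_prs h h).filter _, fun _ he => ⟨(mem_mk.1 he).1, (mem_mk.1 he).2.1⟩⟩

theorem countP_le_card {α β : Type} {l : List α} (hl : l.Nodup) (p : α → Bool) (T : Finset β)
    (f : α → β) (hf : ∀ a ∈ l, p a = true → f a ∈ T)
    (hi : ∀ a ∈ l, ∀ a' ∈ l, p a = true → p a' = true → f a = f a' → a = a') :
    l.countP p ≤ T.card := by
  classical
  rw [List.countP_eq_length_filter, ← List.toFinset_card_of_nodup (hl.filter p)]
  refine card_le_card_of_injOn f (fun a ha => ?_) fun a ha a' ha' h => ?_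
  · have := List.mem_filter.1 (List.mem_toFinset.1 ha)
    exact hf a this.1 this.2
  · have h1 := List.mem_filter.1 (List.mem_toFinset.1 ha)
    have h2 := List.mem_filter.1 (List.mem_toFinset.1 ha')
    exact hi a h1.1 a' h2.1 h1.2 h2.2 h

theorem card_le_countP {α β : Type} (l : List α) (p : α → Bool) (T : Finset β)
    (f : β → α) (hf : ∀ b ∈ T, f b ∈ l ∧ p (f b) = true) (hi : Set.InjOn f T) :
    T.card ≤ l.countP p := by
  classical
  rw [List.countP_eq_length_filter]
  refine le_trans ?_ (List.toFinset_card_le _)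
  exact card_le_card_of_injOn f
    (fun b hb => List.mem_toFinset.2 (List.mem_filter.2 (hf b hb))) hi

theorem countP_eq_card {α : Type} [DecidableEq α] {l : List α} (hl : l.Nodup) (p : α → Bool) :
    l.countP p = (l.toFinset.filter fun a => p a = true).card :=
  le_antisymm (countP_le_card hl p _ id
    (fun _ ha h => mem_filter.2 ⟨List.mem_toFinset.2 ha, h⟩) fun _ _ _ _ _ _ h => h)
    (card_le_countP l p _ id
      (fun _ hb => ⟨List.mem_toFinset.1 (mem_filter.1 hb).1, (mem_filter.1 hb).2⟩)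
      fun _ _ _ _ h => h)

variable [DecidableEq V]

/-- Out-degrees and in-degrees are at most `Δ`. -/
def Deg (Δ : ℕ) (G : LG V) : Prop :=
  ∀ u, (G.2.countP fun e => decide (e.1 = u)) ≤ Δ ∧ (G.2.countP fun e => decide (e.2 = u)) ≤ Δ

/-- Sets of vertices without an arc (or loop) inside have density at most `ε`. -/
def Ind (ε : ℝ) (G : LG V) : Prop :=
  ∀ S : Finset V, (∀ v ∈ S, v ∈ G.1) → (∀ e ∈ G.2, ¬ (e.1 ∈ S ∧ e.2 ∈ S)) →
    (S.card : ℝ) ≤ ε * G.1.length

/-- Every colouring with `c` colours has many monochromatic arcs. -/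
def FarCol (c : ℕ) (γ : ℝ) (G : LG V) : Prop :=
  ∀ col : V → Fin c, γ * G.1.length ≤ (G.2.countP fun e => decide (col e.1 = col e.2) : ℕ)

theorem length_le_of_deg {Δ : ℕ} {G : LG V} (hG : WF G) (h : Deg Δ G) :
    G.2.length ≤ Δ * G.1.length := by
  rw [← List.toFinset_card_of_nodup hG.nd2, ← List.toFinset_card_of_nodup hG.nd1]
  refine card_le_mul_card_image_of_maps_to (f := Prod.fst)
    (fun e he => List.mem_toFinset.2 (hG.mem e (List.mem_toFinset.1 he)).1) Δ fun u _ => ?_
  have := (h u).1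
  rw [countP_eq_card hG.nd2] at this
  simpa using this

/-- Small independent sets force many monochromatic arcs. -/
theorem Ind.farCol {c : ℕ} {G : LG V} (hG : WF G) (h : Ind (1 / (2 * (c + 1))) G) :
    FarCol c (1 / (2 * (c + 1))) G := by
  intro col
  set b : ℕ := G.2.countP fun e => decide (col e.1 = col e.2) with hb
  let Z : Finset V := (G.2.toFinset.filter fun e => col e.1 = col e.2).image Prod.fst
  have hZ : Z.card ≤ b := card_image_le.trans (le_of_eq (by
    rw [hb, countP_eq_card hG.nd2]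
    simp))
  have h1 : ∀ γ, (((G.1.toFinset \ Z).filter fun v => col v = γ).card : ℝ) ≤
      1 / (2 * (c + 1)) * G.1.length := fun γ => by
    refine h _ (fun v hv => List.mem_toFinset.1 (mem_sdiff.1 (mem_filter.1 hv).1).1)
      fun e he h2 => (mem_sdiff.1 (mem_filter.1 h2.1).1).2 (mem_image.2 ⟨e, mem_filter.2
        ⟨List.mem_toFinset.2 he, (mem_filter.1 h2.1).2.trans (mem_filter.1 h2.2).2.symm⟩, rfl⟩)
  have h2 : ((G.1.toFinset \ Z).card : ℝ) ≤ c * (1 / (2 * (c + 1)) * G.1.length) := by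
    rw [card_eq_sum_card_fiberwise (f := col) (t := univ) fun _ _ => mem_univ _]
    push_cast
    exact (sum_le_card_nsmul _ _ _ fun γ _ => h1 γ).trans (by simp)
  have h3 : (G.1.length : ℝ) ≤ (G.1.toFinset \ Z).card + b := by
    rw [← List.toFinset_card_of_nodup hG.nd1]
    exact_mod_cast (card_le_card_sdiff_add_card (s := G.1.toFinset) (t := Z)).trans
      (Nat.add_le_add_left hZ _)
  have h4 : (c : ℝ) * (1 / (2 * (c + 1))) + 1 / (2 * (c + 1)) = 1 / 2 := by field_simp
  have h5 : (0 : ℝ) ≤ G.1.length := Nat.cast_nonneg _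
  have h6 : (G.1.length : ℝ) * ((c : ℝ) * (1 / (2 * (c + 1))) + 1 / (2 * (c + 1))) =
      G.1.length * (1 / 2) := by rw [h4]
  nlinarith

/-! ### The arc graph -/

/-- The arc graph. -/
def arcG (G : LG V) : LG (V × V) := mk G.2 fun e e' => decide (e.2 = e'.1)

theorem mem_arcG {G : LG V} {p : (V × V) × (V × V)} : p ∈ (arcG G).2 ↔ p ∈ arc G.2 := by
  rw [arcG, mem_mk, mem_arc, decide_eq_true_eq]

theorem PT_arcG [Enc V] [EncInj V] : PT ∅ (arcG (V := V)) :=
  PT_mk (P := fun _ (e e' : V × V) => decide (e.2 = e'.1)) PT.snd'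
    (PT.eq PT.snd'.fst.snd PT.snd'.snd.fst)

theorem WF.arcG {G : LG V} (h : WF G) : WF (arcG G) := wf_mk h.nd2 _

theorem Deg.arcG {Δ : ℕ} {G : LG V} (hG : WF G) (h : Deg Δ G) : Deg Δ (arcG G) := by
  intro u
  constructor
  · refine le_trans ?_ (h u.2).1
    rw [countP_eq_card hG.nd2]
    refine countP_le_card hG.arcG.nd2 _ _ Prod.snd (fun p hp h1 => ?_)
      fun p _ p' _ h1 h2 h3 => Prod.ext ((of_decide_eq_true h1).trans (of_decide_eq_true h2).symm) h3
    obtain ⟨-, a2, a3⟩ := mem_arc.1 (mem_arcG.1 hp)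
    exact mem_filter.2 ⟨List.mem_toFinset.2 a2,
      decide_eq_true (by rw [← a3, of_decide_eq_true h1])⟩
  · refine le_trans ?_ (h u.1).2
    rw [countP_eq_card hG.nd2]
    refine countP_le_card hG.arcG.nd2 _ _ Prod.fst (fun p hp h1 => ?_)
      fun p _ p' _ h1 h2 h3 => Prod.ext h3 ((of_decide_eq_true h1).trans (of_decide_eq_true h2).symm)
    obtain ⟨a1, -, a3⟩ := mem_arc.1 (mem_arcG.1 hp)
    exact mem_filter.2 ⟨List.mem_toFinset.2 a1,
      decide_eq_true (by rw [a3, of_decide_eq_true h1])⟩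

theorem col_arcG_arcG {G : LG V} (h : Col 4 G.2) : Col 3 (arcG (arcG G)).2 := by
  obtain ⟨col, hcol⟩ := col_arc_arc h
  refine ⟨col, fun p hp => hcol p ?_⟩
  obtain ⟨a1, a2, a3⟩ := mem_arc.1 (mem_arcG.1 hp)
  exact mem_arc.2 ⟨mem_arcG.1 a1, mem_arcG.1 a2, a3⟩

theorem FarCol.arcG {c Δ : ℕ} {γ : ℝ} {G : LG V} (hG : WF G) (hd : Deg Δ G) (hγ : 0 ≤ γ)
    (h : FarCol (2 ^ c) γ G) : FarCol c (γ / (Δ + 1)) (arcG G) := by
  classical
  intro col
  have hc : Fintype.card (Finset (Fin c)) = 2 ^ c := by simp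
  let S : V → Finset (Fin c) := fun v => univ.filter fun x => ∃ w, (v, w) ∈ G.2 ∧ col (v, w) = x
  have h1 := h fun v => Fintype.equivFinOfCardEq hc (S v)
  have h2 : ∀ e : V × V, ∃ w, e ∈ G.2 → S e.1 = S e.2 → (e.2, w) ∈ G.2 ∧ col (e.2, w) = col e := by
    intro e
    by_cases h3 : e ∈ G.2 ∧ S e.1 = S e.2
    · have h4 : col e ∈ S e.1 := mem_filter.2 ⟨mem_univ _, e.2, h3.1, rfl⟩
      rw [h3.2] at h4
      obtain ⟨w, hw⟩ := (mem_filter.1 h4).2
      exact ⟨w, fun _ _ => hw⟩
    · exact ⟨e.1, fun a b => absurd ⟨a, b⟩ h3⟩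
  choose w hw using h2
  rw [countP_eq_card hG.nd2] at h1
  have h3 := card_le_countP (N342.arcG G).2 (fun e => decide (col e.1 = col e.2))
    (G.2.toFinset.filter fun e => decide (Fintype.equivFinOfCardEq hc (S e.1) =
      Fintype.equivFinOfCardEq hc (S e.2)) = true) (fun e => (e, (e.2, w e)))
    (fun e he => by
      have a1 := List.mem_toFinset.1 (mem_filter.1 he).1
      have a2 := hw e a1
        ((Fintype.equivFinOfCardEq hc).injective (of_decide_eq_true (mem_filter.1 he).2))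
      exact ⟨mem_arcG.2 (mem_arc.2 ⟨a1, a2.1, rfl⟩), decide_eq_true a2.2.symm⟩)
    fun _ _ _ _ h => congrArg Prod.fst h
  refine le_trans ?_ (h1.trans (by exact_mod_cast h3))
  have h4 : (G.2.length : ℝ) ≤ Δ * G.1.length := by exact_mod_cast length_le_of_deg hG hd
  rw [div_mul_eq_mul_div, div_le_iff₀ (by positivity), mul_assoc]
  refine mul_le_mul_of_nonneg_left (h4.trans ?_) hγ
  nlinarith [Nat.cast_nonneg (α := ℝ) G.1.length]

omit [DecidableEq V] in
theorem FarCol.ne_nil {c : ℕ} {γ : ℝ} {G : LG V} (hc : 0 < c) (hγ : 0 < γ) (h0 : G.1 ≠ [])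
    (h : FarCol c γ G) : G.2 ≠ [] := by
  intro e
  have h1 := h fun _ => ⟨0, hc⟩
  have h2 : (0 : ℝ) < G.1.length := by exact_mod_cast List.length_pos_iff.2 h0
  rw [e] at h1
  simp only [List.countP_nil, Nat.cast_zero] at h1
  nlinarith

end Basic

end Vale.Agent.N342
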