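import Vale.Agent.N342.Erdos
import Mathlib.Combinatorics.Pigeonhole

/-!
The twisted product of a graph of bounded degree with a coloured graph of large girth.
-/

namespace Vale.Agent.N342

open Finset Vale.Agent.Lib.PCP Vale.Agent.Lib.PolyTime
open scoped BigOperators

/-- Every endpoint of an arc of `F` is an endpoint of another arc of `F`. -/
def Tight {V : Type} (F : Finset (V × V)) : Prop :=
  ∀ f ∈ F, ∀ P, (P = f.1 ∨ P = f.2) → ∃ f' ∈ F, f' ≠ f ∧ (P = f'.1 ∨ P = f'.2)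

/-- No loops and no cycles with at most `g` arcs. -/
def Gir {V : Type} (g : ℕ) (G : LG V) : Prop :=
  (∀ e ∈ G.2, e.1 ≠ e.2) ∧
    ∀ F : Finset (V × V), F.Nonempty → F.card ≤ g → (∀ f ∈ F, f ∈ G.2) → ¬ Tight F

/-- The position in a list. -/
def idx {α : Type} [DecidableEq α] (l : List α) (a : α) : ℕ := l.idxOf a

/-- Membership in a list. -/
def isMem {α : Type} [DecidableEq α] (l : List α) (a : α) : Bool := decide (a ∈ l)

theorem isMem_iff {α : Type} [DecidableEq α] {l : List α} {a : α} : isMem l a = true ↔ a ∈ l :=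
  decide_eq_true_iff

theorem PT_idx {α β : Type} [DecidableEq α] [Enc α] [EncInj α] [Enc β] {l : β → List α}
    {a : β → α} (hl : PT ∅ l) (ha : PT ∅ a) : PT ∅ fun b => idx (l b) (a b) := PT.idxOf hl ha

theorem PT_isMem {α β : Type} [DecidableEq α] [Enc α] [EncInj α] [Enc β] {l : β → List α}
    {a : β → α} (hl : PT ∅ l) (ha : PT ∅ a) : PT ∅ fun b => isMem (l b) (a b) := PT.memInj hl ha

section Prod

variable {V Y : Type} [DecidableEq V]

/-- The numbers of an arc among the arcs with the same tail and with the same head. -/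
def port (Δ : ℕ) (l : List (V × V)) (e : V × V) : Fin (Δ + 1) × Fin (Δ + 1) :=
  (Fin.ofNat (Δ + 1) (idx (l.filter fun e' => decide (e'.1 = e.1)) e),
    Fin.ofNat (Δ + 1) (idx (l.filter fun e' => decide (e'.2 = e.2)) e))

theorem eq_of_idxOf {α : Type} [DecidableEq α] {Δ : ℕ} {l : List α} (hl : l.length ≤ Δ) {a b : α}
    (ha : a ∈ l) (hb : b ∈ l)
    (h : Fin.ofNat (Δ + 1) (idx l a) = Fin.ofNat (Δ + 1) (idx l b)) : a = b := by
  have h1 := List.idxOf_lt_length_iff.2 ha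
  have h2 := List.idxOf_lt_length_iff.2 hb
  have h3 : l.idxOf a % (Δ + 1) = l.idxOf b % (Δ + 1) := congrArg Fin.val h
  rw [Nat.mod_eq_of_lt (by omega), Nat.mod_eq_of_lt (by omega)] at h3
  exact (List.idxOf_inj ha).1 h3

theorem port_fst {Δ : ℕ} {G : LG V} (h : Deg Δ G) {e e' : V × V} (he : e ∈ G.2) (he' : e' ∈ G.2)
    (h1 : e.1 = e'.1) (h2 : port Δ G.2 e = port Δ G.2 e') : e = e' := by
  have h3 := congrArg Prod.fst h2
  simp only [port, h1] at h3
  exact eq_of_idxOf (List.countP_eq_length_filter ▸ (h e'.1).1)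
    (List.mem_filter.2 ⟨he, decide_eq_true h1⟩) (List.mem_filter.2 ⟨he', decide_eq_true rfl⟩) h3

theorem port_snd {Δ : ℕ} {G : LG V} (h : Deg Δ G) {e e' : V × V} (he : e ∈ G.2) (he' : e' ∈ G.2)
    (h1 : e.2 = e'.2) (h2 : port Δ G.2 e = port Δ G.2 e') : e = e' := by
  have h3 := congrArg Prod.snd h2
  simp only [port, h1] at h3
  exact eq_of_idxOf (List.countP_eq_length_filter ▸ (h e'.2).2)
    (List.mem_filter.2 ⟨he, decide_eq_true h1⟩) (List.mem_filter.2 ⟨he', decide_eq_true rfl⟩) h3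

theorem PT_port [Enc V] [EncInj V] (Δ : ℕ) {α : Type} [Enc α] {l : α → List (V × V)}
    {e : α → V × V} (hl : PT ∅ l) (he : PT ∅ e) : PT ∅ fun a => port Δ (l a) (e a) :=
  (PT.finOfNat (PT_idx (PT.filter (f := fun a (e' : V × V) => decide (e'.1 = (e a).1)) hl
    (PT.eq PT.snd'.fst (he.comp PT.fst').fst)) he)).pair
    (PT.finOfNat (PT_idx (PT.filter (f := fun a (e' : V × V) => decide (e'.2 = (e a).2)) hl
      (PT.eq PT.snd'.snd (he.comp PT.fst').snd)) he))

variable [Fintype Y] {Δ : ℕ}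

/-- The twisted product. -/
noncomputable def tw (ω : Y × Y → Option (Fin (Δ + 1) × Fin (Δ + 1))) (G : LG V) : LG (V × Y) :=
  mk (prs G.1 (univ : Finset Y).toList) fun p q => isMem G.2 (p.1, q.1) &&
    decide (ω (p.2, q.2) = some (port Δ G.2 (p.1, q.1)))

variable {ω : Y × Y → Option (Fin (Δ + 1) × Fin (Δ + 1))} {G : LG V}

theorem mem_tw1 {p : V × Y} : p ∈ (tw ω G).1 ↔ p.1 ∈ G.1 := by simp [tw, mk, mem_prs]

theorem length_tw : (tw ω G).1.length = G.1.length * Fintype.card Y := by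
  simp [tw, mk, length_prs]

theorem mem_tw (hG : WF G) {e : (V × Y) × (V × Y)} : e ∈ (tw ω G).2 ↔
    (e.1.1, e.2.1) ∈ G.2 ∧ ω (e.1.2, e.2.2) = some (port Δ G.2 (e.1.1, e.2.1)) := by
  rw [tw, mem_mk]
  simp only [Bool.and_eq_true, isMem_iff, decide_eq_true_eq, mem_prs, mem_toList, mem_univ,
    and_true]
  exact ⟨fun h => h.2.2, fun h => ⟨(hG.mem _ h.1).1, (hG.mem _ h.1).2, h⟩⟩

theorem PT_tw [Enc V] [EncInj V] [Enc Y] [EncInj Y] : PT ∅ (tw ω : LG V → LG (V × Y)) := by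
  have h1 : PT ∅ fun z : LG V × (V × Y) × (V × Y) => (z.2.1.1, z.2.2.1) :=
    PT.snd'.fst.fst.pair PT.snd'.snd.fst
  have h2 : PT ∅ fun z : LG V × (V × Y) × (V × Y) => (z.2.1.2, z.2.2.2) :=
    PT.snd'.fst.snd.pair PT.snd'.snd.snd
  have h3 : PT ∅ fun z : LG V × (V × Y) × (V × Y) => z.1.2 := PT.fst'.snd
  exact PT_mk (P := fun (G : LG V) (p q : V × Y) => isMem G.2 (p.1, q.1) &&
    decide (ω (p.2, q.2) = some (port Δ G.2 (p.1, q.1)))) (PT_prs PT.fst' (PT.const _))
    ((PT_isMem h3 h1).and (PT.finComp2 (fun a b => decide (ω a = some b)) h2 (PT_port Δ h3 h1)))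

theorem WF.tw (hG : WF G) : WF (tw ω G) := wf_mk (nodup_prs hG.nd1 (nodup_toList _)) _

theorem col_tw (hG : WF G) {k : ℕ} (h : P342.Col k G.2) : P342.Col k (tw ω G).2 := by
  obtain ⟨col, hcol⟩ := h
  exact ⟨fun p => col p.1, fun e he => hcol _ ((mem_tw hG).1 he).1⟩

theorem Deg.tw [DecidableEq Y] (hG : WF G) (h : Deg Δ G) :
    Deg (Δ * Fintype.card Y) (tw ω G) := by
  intro u
  constructor
  · refine le_trans (countP_le_card hG.tw.nd2 _
      ((G.2.toFinset.filter fun e => decide (e.1 = u.1) = true) ×ˢ univ)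
      (fun e => ((e.1.1, e.2.1), e.2.2)) (fun e he h1 => ?_) fun p _ p' _ h1 h2 h3 => ?_) ?_
    · exact mem_product.2 ⟨mem_filter.2 ⟨List.mem_toFinset.2 ((mem_tw hG).1 he).1,
        decide_eq_true (congrArg Prod.fst (of_decide_eq_true h1))⟩, mem_univ _⟩
    · simp only [Prod.mk.injEq] at h3
      exact Prod.ext ((of_decide_eq_true h1).trans (of_decide_eq_true h2).symm)
        (Prod.ext h3.1.2 h3.2)
    · rw [card_product, ← countP_eq_card hG.nd2]
      exact Nat.mul_le_mul_right _ (h _).1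
  · refine le_trans (countP_le_card hG.tw.nd2 _
      ((G.2.toFinset.filter fun e => decide (e.2 = u.1) = true) ×ˢ univ)
      (fun e => ((e.1.1, e.2.1), e.1.2)) (fun e he h1 => ?_) fun p _ p' _ h1 h2 h3 => ?_) ?_
    · exact mem_product.2 ⟨mem_filter.2 ⟨List.mem_toFinset.2 ((mem_tw hG).1 he).1,
        decide_eq_true (congrArg Prod.fst (of_decide_eq_true h1))⟩, mem_univ _⟩
    · simp only [Prod.mk.injEq] at h3
      exact Prod.ext (Prod.ext h3.1.1 h3.2)
        ((of_decide_eq_true h1).trans (of_decide_eq_true h2).symm)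
    · rw [card_product, ← countP_eq_card hG.nd2]
      exact Nat.mul_le_mul_right _ (h _).2

theorem Ind.tw [DecidableEq Y] {ε : ℝ} (hε : 0 ≤ ε) (hω : Hit ε ω) (hG : WF G) (h : Ind ε G) :
    Ind (2 * ε) (tw ω G) := by
  classical
  intro S hS hind
  let I : V → Finset Y := fun u => univ.filter fun y => (u, y) ∈ S
  let S' : Finset V := G.1.toFinset.filter fun u => ε * Fintype.card Y ≤ (I u).card
  have h1 : (S'.card : ℝ) ≤ ε * G.1.length := by
    refine h _ (fun v hv => List.mem_toFinset.1 (mem_filter.1 hv).1) fun e he h2 => ?_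
    obtain ⟨a, ha, b, hb, h3⟩ := hω (port Δ G.2 e) _ _ (mem_filter.1 h2.1).2 (mem_filter.1 h2.2).2
    exact hind ((e.1, a), (e.2, b)) ((mem_tw hG).2 ⟨he, h3⟩)
      ⟨(mem_filter.1 ha).2, (mem_filter.1 hb).2⟩
  have hY : (0 : ℝ) ≤ Fintype.card Y := Nat.cast_nonneg _
  have h2 : (S.card : ℝ) ≤ ∑ u ∈ G.1.toFinset,
      ((if ε * Fintype.card Y ≤ (I u).card then (1 : ℝ) else 0) + ε) * Fintype.card Y := by
    rw [card_eq_sum_card_fiberwise (f := Prod.fst) (t := G.1.toFinset)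
      fun p hp => List.mem_toFinset.2 (mem_tw1.1 (hS p hp))]
    push_cast
    refine sum_le_sum fun x hx => ?_
    have b1 : ((S.filter fun p => p.1 = x).card : ℝ) ≤ (I x).card := by
      refine Nat.cast_le.2 (card_le_card_of_injOn Prod.snd (fun p hp => ?_) fun p hp q hq e => ?_)
      · obtain ⟨c1, rfl⟩ := mem_filter.1 (mem_coe.1 hp)
        exact mem_filter.2 ⟨mem_univ _, c1⟩
      · exact Prod.ext ((mem_filter.1 (mem_coe.1 hp)).2.trans
          (mem_filter.1 (mem_coe.1 hq)).2.symm) e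
    refine b1.trans ?_
    split_ifs with b2
    · have : ((I x).card : ℝ) ≤ Fintype.card Y := by exact_mod_cast card_le_univ _
      nlinarith
    · rw [zero_add]
      exact (not_le.1 b2).le
  rw [← sum_mul, sum_add_distrib, sum_boole, sum_const, List.toFinset_card_of_nodup hG.nd1,
    nsmul_eq_mul] at h2
  rw [length_tw]
  push_cast
  nlinarith [mul_le_mul_of_nonneg_right h1 hY]

theorem FarCol.tw [DecidableEq Y] [Nonempty Y] {c : ℕ} {γ : ℝ} (hc : 0 < c)
    (hω : Hit (1 / c) ω) (hG : WF G) (h : FarCol c γ G) :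
    FarCol c (γ / Fintype.card Y) (tw ω G) := by
  intro col
  have hc' : (0 : ℝ) < c := by exact_mod_cast hc
  have hY : (0 : ℝ) < Fintype.card Y := by exact_mod_cast Fintype.card_pos
  have : Nonempty (Fin c) := ⟨⟨0, hc⟩⟩
  choose κ _ hκ using fun u => exists_le_card_fiber_of_nsmul_le_card_of_maps_to
    (s := (univ : Finset Y)) (t := (univ : Finset (Fin c))) (f := fun y => col (u, y))
    (b := 1 / (c : ℝ) * Fintype.card Y) (fun _ _ => mem_univ _) univ_nonempty (le_of_eq (by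
      simp only [card_univ, Fintype.card_fin, nsmul_eq_mul]
      field_simp))
  choose a ha b hb hab using fun e : V × V => hω (port Δ G.2 e) _ _ (hκ e.1) (hκ e.2)
  have h1 := h κ
  rw [countP_eq_card hG.nd2] at h1
  have h2 := card_le_countP (N342.tw ω G).2 (fun e => decide (col e.1 = col e.2))
    (G.2.toFinset.filter fun e => decide (κ e.1 = κ e.2) = true)
    (fun e => ((e.1, a e), (e.2, b e)))
    (fun e he => ⟨(mem_tw hG).2 ⟨List.mem_toFinset.1 (mem_filter.1 he).1, hab e⟩,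
      decide_eq_true (((mem_filter.1 (ha e)).2.trans
        (of_decide_eq_true (mem_filter.1 he).2)).trans (mem_filter.1 (hb e)).2.symm)⟩)
    fun _ _ _ _ h => Prod.ext (congrArg (fun z => z.1.1) h) (congrArg (fun z => z.2.1) h)
  refine le_trans (le_of_eq ?_) (h1.trans (by exact_mod_cast h2))
  rw [length_tw]
  push_cast
  field_simp

theorem gir_tw [DecidableEq Y] {g : ℕ} (hg : 1 ≤ g) (hω : Sparse g ω) (hG : WF G) (h : Deg Δ G) :
    Gir g (tw ω G) := by
  have hloop : ∀ y, ω (y, y) = none := fun y => by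
    by_contra hc
    simpa using hω {(y, y)} {y} (singleton_nonempty _) (by simpa using hg) (by simpa using hc)
  have hne : ∀ e ∈ (tw ω G).2, e.1.2 ≠ e.2.2 := fun e he h1 => by
    have h2 := ((mem_tw hG).1 he).2
    rw [h1, hloop] at h2
    exact absurd h2 (by simp)
  refine ⟨fun e he h1 => hne e he (congrArg Prod.snd h1), fun F hF hFg hFl hT => ?_⟩
  let pr : (V × Y) × (V × Y) → Y × Y := fun f => (f.1.2, f.2.2)
  have key : ∀ f ∈ F, ∀ f' ∈ F, ∀ P, (P = f.1 ∨ P = f.2) → (P = f'.1 ∨ P = f'.2) →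
      pr f' = pr f → f' = f := by
    intro f hf f' hf' P h1 h2 h3
    obtain ⟨a1, a2⟩ := (mem_tw hG).1 (hFl f hf)
    obtain ⟨b1, b2⟩ := (mem_tw hG).1 (hFl f' hf')
    obtain ⟨c1, c2⟩ := Prod.mk.inj h3
    rw [c1, c2, a2] at b2
    have c3 : (f.1.1, f.2.1) = (f'.1.1, f'.2.1) := by
      rcases h1 with h1 | h1 <;> rcases h2 with h2 | h2
      · exact port_fst h a1 b1 (congrArg Prod.fst (h1.symm.trans h2) :) (Option.some.inj b2)
      · exact absurd ((congrArg Prod.snd (h1.symm.trans h2)).trans c2) (hne f (hFl f hf))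
      · exact absurd (c1.symm.trans (congrArg Prod.snd (h2.symm.trans h1))) (hne f (hFl f hf))
      · exact port_snd h a1 b1 (congrArg Prod.fst (h1.symm.trans h2) :) (Option.some.inj b2)
    obtain ⟨c4, c5⟩ := Prod.mk.inj c3
    exact Prod.ext (Prod.ext c4.symm c1) (Prod.ext c5.symm c2)
  let F₀ := F.image pr
  let U := F₀.image Prod.fst ∪ F₀.image Prod.snd
  have m1 : ∀ f ∈ F₀, f.1 ∈ U := fun f hf => mem_union_left _ (mem_image_of_mem _ hf)
  have m2 : ∀ f ∈ F₀, f.2 ∈ U := fun f hf => mem_union_right _ (mem_image_of_mem _ hf)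
  have h1 := hω F₀ U (hF.image _) (card_image_le.trans hFg) fun f hf => ⟨by
    obtain ⟨f', hf', rfl⟩ := mem_image.1 hf
    rw [((mem_tw hG).1 (hFl f' hf')).2]
    simp, m1 f hf, m2 f hf⟩
  have h2 : ∀ y ∈ U, 2 ≤ (F₀.filter fun f => f.1 = y).card + (F₀.filter fun f => f.2 = y).card := by
    intro y hy
    obtain ⟨f, hf, P, hP, rfl⟩ : ∃ f ∈ F, ∃ P : V × Y, (P = f.1 ∨ P = f.2) ∧ P.2 = y := by
      rcases mem_union.1 hy with h3 | h3 <;> obtain ⟨_, h4, rfl⟩ := mem_image.1 h3 <;>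
        obtain ⟨f, hf, rfl⟩ := mem_image.1 h4
      exacts [⟨f, hf, f.1, Or.inl rfl, rfl⟩, ⟨f, hf, f.2, Or.inr rfl, rfl⟩]
    obtain ⟨f', hf', n1, hP'⟩ := hT f hf P hP
    have m3 : ∀ f ∈ F, (P = f.1 ∨ P = f.2) →
        pr f ∈ (F₀.filter fun f => f.1 = P.2) ∪ F₀.filter fun f => f.2 = P.2 := by
      rintro f hf (rfl | rfl)
      · exact mem_union_left _ (mem_filter.2 ⟨mem_image_of_mem _ hf, rfl⟩)
      · exact mem_union_right _ (mem_filter.2 ⟨mem_image_of_mem _ hf, rfl⟩)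
    exact le_trans (one_lt_card.2 ⟨_, m3 f' hf' hP', _, m3 f hf hP,
      fun e => n1 (key f hf f' hf' P hP hP' e)⟩) (card_union_le _ _)
  have h3 := card_nsmul_le_sum _ _ _ h2
  rw [sum_add_distrib, ← card_eq_sum_card_fiberwise m1, ← card_eq_sum_card_fiberwise m2,
    smul_eq_mul] at h3
  omega

end Prod

end Vale.Agent.N342
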