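import Vale.Agent.N342.Defs
import Vale.Agent.N342.Prod
import Vale.Agent.P342.Bridge
import Mathlib.Combinatorics.SimpleGraph.Connectivity.Subgraph

/-!
From lists to simple graphs, and the two hardness theorems.
-/

namespace Vale.Agent.N342

open Finset Vale.Agent.Lib.PCP Vale.Agent.Lib.PolyTime
open scoped BigOperators

section Conv

variable {V : Type} [DecidableEq V]

/-- Adjacency of two vertices. -/
def adjB (G : LG V) (u v : V) : Bool := !decide (u = v) && (isMem G.2 (u, v) || isMem G.2 (v, u))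

theorem adjB_iff {G : LG V} {u v : V} :
    adjB G u v = true ↔ u ≠ v ∧ ((u, v) ∈ G.2 ∨ (v, u) ∈ G.2) := by
  simp [adjB, isMem_iff]

/-- The simple graph of a list of vertices and a list of arcs. -/
def toSG (G : LG V) : SimpleGraph (Fin G.1.length) where
  Adj i j := adjB G G.1[(i : ℕ)] G.1[(j : ℕ)] = true
  symm := ⟨fun _ _ h => adjB_iff.2 ⟨(adjB_iff.1 h).1.symm, (adjB_iff.1 h).2.symm⟩⟩
  loopless := ⟨fun _ h => (adjB_iff.1 h).1 rfl⟩

theorem toSG_adj {G : LG V} {i j : Fin G.1.length} : (toSG G).Adj i j ↔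
    G.1[(i : ℕ)] ≠ G.1[(j : ℕ)] ∧ ((G.1[(i : ℕ)], G.1[(j : ℕ)]) ∈ G.2 ∨
      (G.1[(j : ℕ)], G.1[(i : ℕ)]) ∈ G.2) := adjB_iff

/-- The data which is written down. -/
def data (G : LG V) : Un × Raw :=
  (⟨G.1.length⟩, ⟨(G.1.map fun u => G.1.map fun v => adjB G u v).flatten⟩)

theorem code_toSG (G : LG V) : P342.code (toSG G) = enc (data G) := by
  rw [data, enc_pair, enc_un, enc_raw, P342.code, P342.pair_eq_pr]
  congr 2
  rw [← List.ofFn_getElem_eq_map]
  congr 1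
  funext u
  rw [← List.ofFn_getElem_eq_map]
  congr 1
  funext v
  rw [Bool.eq_iff_iff]
  simp only [decide_eq_true_eq]
  rfl

theorem PT_data [Enc V] [EncInj V] : PT ∅ (data (V := V)) := by
  have h1 : PT ∅ fun z : (LG V × V) × V => z.1.1.2 := PT.fst'.fst.snd
  have h2 : PT ∅ fun z : (LG V × V) × V => adjB z.1.1 z.1.2 z.2 :=
    (PT.eq PT.fst'.snd PT.snd').not.and ((PT_isMem h1 (PT.fst'.snd.pair PT.snd')).or
      (PT_isMem h1 (PT.snd'.pair PT.fst'.snd)))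
  refine PT.pair (PT.mkUn PT.fst'.length (PBd.length (A := ∅) PT.fst'))
    (PT.rawOfList (PT.flatten ?_))
  exact PT.map (f := fun (G : LG V) u => G.1.map fun v => adjB G u v) PT.fst'
    (PT.map (f := fun (z : LG V × V) v => adjB z.1 z.2 v) PT.fst'.fst h2)

theorem graphNPHard_of_hard [Enc V] [EncInj V] {α : Type} [Enc α] {P : Promise α} (h : Hard P)
    (F : α → LG V) (hF : PT ∅ F) {Yes No : ∀ n : ℕ, SimpleGraph (Fin n) → Prop}
    (h1 : ∀ a, P.yes a → Yes _ (toSG (F a))) (h2 : ∀ a, P.no a → No _ (toSG (F a))) :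
    GraphNPHard Yes No := by
  intro L hL
  obtain ⟨f, hf, f1, f2⟩ := (P342.cookLevin hL).trans h
  refine ⟨_, fun x => toSG (F (f ⟨x⟩)), ?_, fun x hx => h1 _ (f1 ⟨x⟩ hx),
    fun x hx => h2 _ (f2 ⟨x⟩ hx)⟩
  obtain ⟨g, hg, hg'⟩ := PT_data.comp (hF.comp hf)
  refine P342.polyTime_iff.2 (hg.congr fun x => ?_)
  rw [code_toSG]
  exact hg' ⟨x⟩

variable {G : LG V}

theorem colorable_toSG {k : ℕ} (h : P342.Col k G.2) : (toSG G).Colorable k := by
  obtain ⟨col, hcol⟩ := h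
  refine ⟨SimpleGraph.Coloring.mk (fun i => col G.1[(i : ℕ)]) fun {i j} hij => ?_⟩
  rcases (toSG_adj.1 hij).2 with h | h
  exacts [hcol _ h, (hcol _ h).symm]

omit [DecidableEq V] in
theorem get_inj (hG : WF G) : Function.Injective fun i : Fin G.1.length => G.1[(i : ℕ)] :=
  fun _ _ h => Fin.ext ((hG.nd1.getElem_inj_iff).1 h)

omit [DecidableEq V] in
theorem exists_get {v : V} (h : v ∈ G.1) : ∃ i : Fin G.1.length, G.1[(i : ℕ)] = v := by
  obtain ⟨i, hi, rfl⟩ := List.getElem_of_mem h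
  exact ⟨⟨i, hi⟩, rfl⟩

theorem deg_toSG {Δ : ℕ} (hG : WF G) (h : Deg Δ G) (i : Fin G.1.length) :
    ((toSG G).neighborSet i).ncard ≤ 2 * Δ := by
  have h1 := (h G.1[(i : ℕ)]).1
  have h2 := (h G.1[(i : ℕ)]).2
  rw [countP_eq_card hG.nd2] at h1 h2
  refine le_trans (Set.ncard_le_ncard_of_injOn (fun j : Fin G.1.length => G.1[(j : ℕ)])
    (t := ↑((G.2.toFinset.filter fun e => decide (e.1 = G.1[(i : ℕ)]) = true).image Prod.snd ∪
      (G.2.toFinset.filter fun e => decide (e.2 = G.1[(i : ℕ)]) = true).image Prod.fst))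
    (fun j hj => ?_) (get_inj hG).injOn) ?_
  · rcases (toSG_adj.1 hj).2 with h3 | h3
    · exact mem_coe.2 (mem_union_left _ (mem_image.2
        ⟨_, mem_filter.2 ⟨List.mem_toFinset.2 h3, decide_eq_true rfl⟩, rfl⟩))
    · exact mem_coe.2 (mem_union_right _ (mem_image.2
        ⟨_, mem_filter.2 ⟨List.mem_toFinset.2 h3, decide_eq_true rfl⟩, rfl⟩))
  · rw [Set.ncard_coe_finset, two_mul]
    exact (card_union_le _ _).trans (add_le_add (card_image_le.trans h1) (card_image_le.trans h2))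

theorem indepNum_toSG {ε : ℝ} {g : ℕ} (hG : WF G) (hg : Gir g G) (h : Ind ε G) :
    ((toSG G).indepNum : ℝ) ≤ ε * G.1.length := by
  obtain ⟨S, h1, h2⟩ := (toSG G).exists_isNIndepSet_indepNum
  rw [← h2, ← card_image_of_injective S (get_inj hG)]
  refine h _ (fun v hv => ?_) fun e he h3 => ?_
  · obtain ⟨i, -, rfl⟩ := mem_image.1 hv
    exact List.getElem_mem _
  · obtain ⟨i, hi, e1⟩ := mem_image.1 h3.1
    obtain ⟨j, hj, e2⟩ := mem_image.1 h3.2
    have h4 : (toSG G).Adj i j := toSG_adj.2 (by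
      rw [show G.1[(i : ℕ)] = e.1 from e1, show G.1[(j : ℕ)] = e.2 from e2]
      exact ⟨hg.1 e he, Or.inl he⟩)
    exact h1 hi hj h4.ne h4

theorem Gir.asymm {g : ℕ} (hg : Gir g G) (h2 : 2 ≤ g) {a b : V} (h : (a, b) ∈ G.2)
    (h' : (b, a) ∈ G.2) : False := by
  have hne : (a, b) ≠ (b, a) := fun e => hg.1 _ h (congrArg Prod.fst e)
  refine hg.2 {(a, b), (b, a)} (insert_nonempty _ _) (card_le_two.trans h2) (fun f hf => ?_)
    fun f hf P hP => ?_
  · rcases mem_insert.1 hf with rfl | hf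
    exacts [h, mem_singleton.1 hf ▸ h']
  · rcases mem_insert.1 hf with rfl | hf
    · exact ⟨(b, a), by simp, hne.symm, hP.symm⟩
    · rw [mem_singleton.1 hf] at hP ⊢
      exact ⟨(a, b), by simp, hne, hP.symm⟩

/-- Arcs correspond to edges. -/
theorem exists_edge {g : ℕ} (hG : WF G) (hg : Gir g G) (h2 : 2 ≤ g) (h0 : G.1 ≠ []) :
    ∃ ix : V → Fin G.1.length, (∀ i : Fin G.1.length, ix G.1[(i : ℕ)] = i) ∧
      (∀ e ∈ G.2, (toSG G).Adj (ix e.1) (ix e.2)) ∧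
      ∀ e ∈ G.2, ∀ e' ∈ G.2, s(ix e.1, ix e.2) = s(ix e'.1, ix e'.2) → e = e' := by
  have : Nonempty (Fin G.1.length) := ⟨⟨0, List.length_pos_iff.2 h0⟩⟩
  obtain ⟨ix, hix⟩ := (get_inj hG).hasLeftInverse
  have h1 : ∀ v ∈ G.1, G.1[(ix v : ℕ)] = v := fun v hv => by
    obtain ⟨i, rfl⟩ := exists_get hv
    exact congrArg (fun j : Fin G.1.length => G.1[(j : ℕ)]) (hix i)
  have h3 : ∀ u ∈ G.1, ∀ v ∈ G.1, ix u = ix v → u = v := fun u hu v hv h =>
    (h1 u hu).symm.trans ((congrArg (fun j : Fin G.1.length => G.1[(j : ℕ)]) h).trans (h1 v hv))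
  refine ⟨ix, hix, fun e he => toSG_adj.2 ?_, fun e he e' he' h => ?_⟩
  · rw [h1 _ (hG.mem e he).1, h1 _ (hG.mem e he).2]
    exact ⟨hg.1 e he, Or.inl he⟩
  · rcases Sym2.eq_iff.1 h with ⟨a, b⟩ | ⟨a, b⟩
    · exact Prod.ext (h3 _ (hG.mem e he).1 _ (hG.mem e' he').1 a)
        (h3 _ (hG.mem e he).2 _ (hG.mem e' he').2 b)
    · refine (hg.asymm h2 (a := e.1) (b := e.2) he ?_).elim
      rw [h3 _ (hG.mem e he).1 _ (hG.mem e' he').2 a, h3 _ (hG.mem e he).2 _ (hG.mem e' he').1 b]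
      exact he'

theorem monoEdges_toSG {c g : ℕ} {γ : ℝ} (hG : WF G) (hg : Gir g G) (h2 : 2 ≤ g) (h0 : G.1 ≠ [])
    (h : FarCol c γ G) (col : Fin G.1.length → Fin c) :
    γ * G.1.length ≤ monoEdges (toSG G) col := by
  obtain ⟨ix, -, a2, a3⟩ := exists_edge hG hg h2 h0
  refine (h fun v => col (ix v)).trans (Nat.cast_le.2 ?_)
  rw [monoEdges, Set.ncard_eq_toFinset_card _ (Set.toFinite _)]
  refine countP_le_card hG.nd2 _ _ (fun e => s(ix e.1, ix e.2)) (fun e he h1 => ?_)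
    fun e he e' he' _ _ h1 => a3 e he e' he' h1
  rw [Set.Finite.mem_toFinset]
  exact ⟨a2 e he, by simpa using h1⟩

theorem egirth_toSG {g : ℕ} (hG : WF G) (hg : Gir g G) (h2 : 2 ≤ g) :
    (g : ℕ∞) < (toSG G).egirth := by
  classical
  refine lt_of_lt_of_le (b := ((g + 1 : ℕ) : ℕ∞)) (by exact_mod_cast Nat.lt_succ_self g)
    (SimpleGraph.le_egirth.2 fun a p hp => ?_)
  by_contra hc
  have hl : p.length ≤ g := by
    rw [not_le, Nat.cast_lt] at hc
    omega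
  obtain ⟨ix, a1, a2, a3⟩ := exists_edge hG hg h2 (List.ne_nil_of_length_pos a.pos)
  let F := G.2.toFinset.filter fun e => s(ix e.1, ix e.2) ∈ p.edges
  have b1 : ∀ i j, s(i, j) ∈ p.edges → ∃ f ∈ F, s(ix f.1, ix f.2) = s(i, j) ∧
      (G.1[(i : ℕ)] = f.1 ∨ G.1[(i : ℕ)] = f.2) := by
    intro i j hij
    rcases (toSG_adj.1 (p.adj_of_mem_edges hij)).2 with h | h
    · exact ⟨_, mem_filter.2 ⟨List.mem_toFinset.2 h, by simpa only [a1] using hij⟩,
        by simp only [a1], Or.inl rfl⟩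
    · exact ⟨_, mem_filter.2 ⟨List.mem_toFinset.2 h, by
        simpa only [a1, Sym2.eq_swap (a := j)] using hij⟩, by simp only [a1, Sym2.eq_swap (a := j)],
        Or.inr rfl⟩
  have b2 : ∀ i ∈ p.support, ∃ j j', j ≠ j' ∧ s(i, j) ∈ p.edges ∧ s(i, j') ∈ p.edges := by
    intro i hi
    obtain ⟨j, j', h1, h3⟩ := Set.ncard_eq_two.1 (hp.ncard_neighborSet_toSubgraph_eq_two hi)
    refine ⟨j, j', h1, SimpleGraph.Walk.adj_toSubgraph_iff_mem_edges.1 ?_,
      SimpleGraph.Walk.adj_toSubgraph_iff_mem_edges.1 ?_⟩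
    · exact h3.ge (Set.mem_insert _ _)
    · exact h3.ge (Set.mem_insert_of_mem _ rfl)
  refine hg.2 F ?_ ?_ (fun f hf => List.mem_toFinset.1 (mem_filter.1 hf).1) fun f hf P hP => ?_
  · obtain ⟨j, -, -, h1, -⟩ := b2 a p.start_mem_support
    obtain ⟨f, hf, -⟩ := b1 _ _ h1
    exact ⟨f, hf⟩
  · refine le_trans (card_le_card_of_injOn (t := p.edges.toFinset) (fun e => s(ix e.1, ix e.2))
      (fun e he => List.mem_toFinset.2 (mem_filter.1 he).2) fun e he e' he' h =>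
        a3 e (List.mem_toFinset.1 (mem_filter.1 he).1) e'
          (List.mem_toFinset.1 (mem_filter.1 he').1) h) ?_
    exact (List.toFinset_card_le _).trans (p.length_edges.trans_le hl)
  · have c1 := hG.mem f (List.mem_toFinset.1 (mem_filter.1 hf).1)
    obtain ⟨i, rfl⟩ := exists_get (show P ∈ G.1 by rcases hP with rfl | rfl; exacts [c1.1, c1.2])
    have c2 : i ∈ p.support := by
      rw [← a1 i]
      rcases hP with h | h <;> rw [h]
      exacts [p.fst_mem_support_of_mem_edges (mem_filter.1 hf).2,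
        p.snd_mem_support_of_mem_edges (mem_filter.1 hf).2]
    obtain ⟨j, j', n1, h1, h3⟩ := b2 i c2
    obtain ⟨f₁, m1, e1, o1⟩ := b1 _ _ h1
    obtain ⟨f₂, m2, e2, o2⟩ := b1 _ _ h3
    by_cases c3 : f₁ = f
    · refine ⟨f₂, m2, fun c4 => n1 ?_, o2⟩
      rw [c3] at e1
      rw [c4] at e2
      exact Sym2.congr_right.1 (e1.symm.trans e2)
    · exact ⟨f₁, m1, c3, o1⟩

end Conv

/-- Four colours against small independent sets. -/
theorem hard_indep {ε : ℝ} (hε : 0 < ε) (g : ℕ) : ∃ Δ : ℕ,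
    GraphNPHard (fun _ G => G.Colorable 4 ∧ DegGirth Δ g G)
      fun n G => 0 < n ∧ (G.indepNum : ℝ) ≤ ε * n ∧ DegGirth Δ g G := by
  obtain ⟨V, _, _, _, Δ, h⟩ := hard_four (half_pos hε)
  obtain ⟨Y, _, _, _, _, _, ω, h1, h2⟩ :=
    exists_gadget (Fin (Δ + 1) × Fin (Δ + 1)) (g + 2) (half_pos hε)
  have h3 : ∀ G : LG V, WF G → Deg Δ G →
      DegGirth (2 * (Δ * Fintype.card Y)) g (toSG (tw ω G)) := fun G a b =>
    ⟨deg_toSG a.tw (b.tw a), lt_of_le_of_lt (by exact_mod_cast Nat.le_add_right g 2)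
      (egirth_toSG a.tw (gir_tw (by omega) h1 a b) (by omega))⟩
  refine ⟨2 * (Δ * Fintype.card Y), graphNPHard_of_hard h (tw ω) PT_tw ?_ ?_⟩
  · rintro G ⟨a, b, c⟩
    exact ⟨colorable_toSG (col_tw a c), h3 G a b⟩
  · rintro G ⟨a, b, c, d⟩
    refine ⟨?_, ?_, h3 G a b⟩
    · rw [length_tw]
      exact Nat.mul_pos (List.length_pos_iff.2 c) Fintype.card_pos
    · have := indepNum_toSG a.tw (gir_tw (by omega) h1 a b) (d.tw (half_pos hε).le h2 a)
      rwa [show 2 * (ε / 2) = ε by ring] at this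

/-- Three colours against many monochromatic edges. -/
theorem hard_three {c : ℕ} (hc : 0 < c) (g : ℕ) : ∃ (Δ : ℕ) (γ : ℝ), 0 < γ ∧
    GraphNPHard (fun _ G => G.Colorable 3 ∧ DegGirth Δ g G)
      fun n G => 0 < n ∧ (∀ col : Fin n → Fin c, γ * n ≤ monoEdges G col) ∧ DegGirth Δ g G := by
  have hε : (0 : ℝ) < 1 / (2 * ((2 ^ 2 ^ c : ℕ) + 1)) := by positivity
  obtain ⟨V, _, _, _, Δ, h⟩ := hard_four hε
  obtain ⟨Y, _, _, _, _, _, ω, h1, h2⟩ := exists_gadget (Fin (Δ + 1) × Fin (Δ + 1)) (g + 2)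
    (show (0 : ℝ) < 1 / c by positivity)
  have hY : (0 : ℝ) < Fintype.card Y := by exact_mod_cast Fintype.card_pos
  have h4 : ∀ G : LG V, WF G → Deg Δ G → Deg Δ (arcG (arcG G)) := fun G a b =>
    (b.arcG a).arcG a.arcG
  have h3 : ∀ G : LG V, WF G → Deg Δ G →
      DegGirth (2 * (Δ * Fintype.card Y)) g (toSG (tw ω (arcG (arcG G)))) := fun G a b =>
    ⟨deg_toSG a.arcG.arcG.tw ((h4 G a b).tw a.arcG.arcG),
      lt_of_le_of_lt (by exact_mod_cast Nat.le_add_right g 2)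
      (egirth_toSG a.arcG.arcG.tw (gir_tw (by omega) h1 a.arcG.arcG (h4 G a b)) (by omega))⟩
  refine ⟨2 * (Δ * Fintype.card Y),
    1 / (2 * ((2 ^ 2 ^ c : ℕ) + 1)) / (Δ + 1) / (Δ + 1) / Fintype.card Y, by positivity,
    graphNPHard_of_hard h (fun G => tw ω (arcG (arcG G)))
      (PT_tw.comp (PT_arcG.comp PT_arcG)) ?_ ?_⟩
  · rintro G ⟨a, b, c⟩
    exact ⟨colorable_toSG (col_tw a.arcG.arcG (col_arcG_arcG c)), h3 G a b⟩
  · rintro G ⟨a, b, c₀, d⟩
    have f0 := d.farCol a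
    have f1 := f0.arcG a b hε.le
    have f2 := f1.arcG a.arcG (b.arcG a) (by positivity)
    have n1 : (arcG G).1 ≠ [] := f0.ne_nil (by positivity) hε c₀
    have n2 : (arcG (arcG G)).1 ≠ [] := f1.ne_nil (by positivity) (by positivity) n1
    have n3 : 0 < (tw ω (arcG (arcG G))).1.length := by
      rw [length_tw]
      exact Nat.mul_pos (List.length_pos_iff.2 n2) Fintype.card_pos
    exact ⟨n3, monoEdges_toSG a.arcG.arcG.tw (gir_tw (by omega) h1 a.arcG.arcG (h4 G a b))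
      (by omega) (List.length_pos_iff.1 n3) (f2.tw hc h2 a.arcG.arcG), h3 G a b⟩

end Vale.Agent.N342
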