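import Vale.Agent.P342.Defs
import Mathlib.Combinatorics.SimpleGraph.Girth
import Mathlib.Combinatorics.SimpleGraph.Clique
import Mathlib.Data.Set.Card

/-!
NP-hardness of promise problems on graphs; graphs of bounded degree and large girth; monochromatic
edges.
-/

namespace Vale.Agent.N342

/-- It is NP-hard to distinguish graphs with the property `Yes` from graphs with the property `No`:
every language in NP has a polynomial time map to graphs which sends members to graphs with the
property `Yes` and non-members to graphs with the property `No`. -/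
def GraphNPHard (Yes No : ∀ n : ℕ, SimpleGraph (Fin n) → Prop) : Prop :=
  ∀ L ∈ P342.NP, ∃ (n : List Bool → ℕ) (G : ∀ x, SimpleGraph (Fin (n x))),
    P342.PolyTime (fun x => P342.code (G x)) ∧ (∀ x, x ∈ L → Yes (n x) (G x)) ∧
      (∀ x, x ∉ L → No (n x) (G x))

/-- Every vertex has at most `Δ` neighbours and there is no cycle of length at most `g`. -/
def DegGirth (Δ g : ℕ) {n : ℕ} (G : SimpleGraph (Fin n)) : Prop :=
  (∀ v, (G.neighborSet v).ncard ≤ Δ) ∧ (g : ℕ∞) < G.egirth

/-- The number of edges whose two ends get the same colour. -/
noncomputable def monoEdges {n c : ℕ} (G : SimpleGraph (Fin n)) (col : Fin n → Fin c) : ℕ :=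
  {e ∈ G.edgeSet | (e.map col).IsDiag}.ncard

end Vale.Agent.N342
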