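import Vale.Agent.N342.Four
import Mathlib.Analysis.SpecialFunctions.Exp

/-!
A finite directed graph with coloured arcs, without short cycles, in which every colour joins any
two large sets (the probabilistic argument of Erdős).
-/

namespace Vale.Agent.N342

open Finset Vale.Agent.Lib.PCP Vale.Agent.Lib.PolyTime
open scoped BigOperators

theorem expect_prod_pow {ι P Γ : Type} [Fintype ι] [DecidableEq ι] [Fintype P] [DecidableEq P]
    [Fintype Γ] [AddCommGroup Γ] {a : ι → P} (ha : Function.Injective a) (φ : Γ → ℝ) :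
    𝔼 ω : P → Γ, ∏ i, φ (ω (a i)) = (𝔼 r, φ r) ^ Fintype.card ι := by
  rw [P342.LCode.expect_comp_inj ha fun z => ∏ i, φ (z i), Fintype.expect_eq_sum_div_card,
    Fintype.expect_eq_sum_div_card, ← Fintype.piFinset_univ, ← prod_univ_sum, div_pow]
  simp

/-- Few arcs span more vertices than their number. -/
def Sparse {Y K : Type} (g : ℕ) (ω : Y × Y → Option K) : Prop :=
  ∀ (F : Finset (Y × Y)) (U : Finset Y), F.Nonempty → F.card ≤ g →
    (∀ f ∈ F, ω f ≠ none ∧ f.1 ∈ U ∧ f.2 ∈ U) → F.card < U.card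

/-- Every colour joins any two large sets. -/
def Hit {Y K : Type} [Fintype Y] (ε : ℝ) (ω : Y × Y → Option K) : Prop :=
  ∀ (k : K) (A B : Finset Y), ε * Fintype.card Y ≤ A.card → ε * Fintype.card Y ≤ B.card →
    ∃ a ∈ A, ∃ b ∈ B, ω (a, b) = some k

section Random

variable {N M : ℕ}

open Classical in
/-- The dense configurations with `l` active arcs. -/
noncomputable def badSet (Act : Finset (Fin (M + 1))) (l : ℕ) (ω : Fin N × Fin N → Fin (M + 1)) :
    Finset ((Fin l → Fin N) × (Fin l → Fin l × Fin l)) :=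
  univ.filter fun z => Function.Injective (fun i => (z.1 (z.2 i).1, z.1 (z.2 i).2)) ∧
    ∀ i, ω (z.1 (z.2 i).1, z.1 (z.2 i).2) ∈ Act

theorem expect_badSet (Act : Finset (Fin (M + 1))) (l : ℕ) :
    𝔼 ω : Fin N × Fin N → Fin (M + 1), ((badSet Act l ω).card : ℝ) ≤
      (N * (l * l) * (Act.card / (M + 1)) : ℝ) ^ l := by
  classical
  have h1 : 𝔼 r : Fin (M + 1), (if r ∈ Act then (1 : ℝ) else 0) = Act.card / (M + 1) := by
    rw [Fintype.expect_eq_sum_div_card]
    simp
  simp only [badSet, card_filter]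
  push_cast
  rw [expect_sum_comm]
  refine (sum_le_card_nsmul _ _ ((Act.card / (M + 1) : ℝ) ^ l) fun z _ => ?_).trans
    (le_of_eq (by simp [mul_pow]))
  by_cases h : Function.Injective fun i => (z.1 (z.2 i).1, z.1 (z.2 i).2)
  · have h2 := expect_prod_pow h fun r => if r ∈ Act then (1 : ℝ) else 0
    rw [h1, Fintype.card_fin] at h2
    refine le_of_eq (Eq.trans (expect_congr rfl fun ω _ => ?_) h2)
    simp [h, prod_boole]
  · simp only [h, false_and, if_false, expect_const_zero]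
    positivity

theorem expect_miss (r₀ : Fin (M + 1)) (A B : Finset (Fin N))
    (h : 3 * N * (M + 1) ≤ (A.card : ℝ) * B.card) :
    𝔼 ω : Fin N × Fin N → Fin (M + 1),
      (if ∀ a ∈ A, ∀ b ∈ B, ω (a, b) ≠ r₀ then (1 : ℝ) else 0) ≤ (1 / 8) ^ N := by
  have hM : (0 : ℝ) < M + 1 := by positivity
  have h1 : 𝔼 r : Fin (M + 1), (if r ≠ r₀ then (1 : ℝ) else 0) = 1 - 1 / (M + 1) := by
    rw [Fintype.expect_eq_sum_div_card, sum_boole, filter_ne', card_erase_of_mem (mem_univ _)]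
    simp only [card_univ, Fintype.card_fin, add_tsub_cancel_right]
    push_cast
    field_simp
    ring
  have h2 := expect_prod_pow (ι := ↥(A ×ˢ B)) Subtype.val_injective
    fun r => if r ≠ r₀ then (1 : ℝ) else 0
  rw [h1, Fintype.card_coe, card_product] at h2
  have h3 : ∀ ω : Fin N × Fin N → Fin (M + 1),
      (if ∀ a ∈ A, ∀ b ∈ B, ω (a, b) ≠ r₀ then (1 : ℝ) else 0) =
        ∏ i : ↥(A ×ˢ B), if ω i.1 ≠ r₀ then (1 : ℝ) else 0 := fun ω => by
    split_ifs with h
    · exact (prod_eq_one fun i _ =>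
        if_pos (h _ (mem_product.1 i.2).1 _ (mem_product.1 i.2).2)).symm
    · push Not at h
      obtain ⟨a, ha, b, hb, h⟩ := h
      exact (prod_eq_zero (mem_univ ⟨(a, b), mem_product.2 ⟨ha, hb⟩⟩) (if_neg fun h' => h' h)).symm
  rw [expect_congr rfl fun ω _ => h3 ω, h2]
  have h4 : 1 - 1 / ((M : ℝ) + 1) ≤ Real.exp (-(1 / (M + 1))) := by
    linarith [Real.add_one_le_exp (-(1 / ((M : ℝ) + 1)))]
  have h5 : (0 : ℝ) ≤ 1 - 1 / (M + 1) := by
    rw [sub_nonneg, div_le_one hM]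
    linarith [Nat.cast_nonneg (α := ℝ) M]
  have h6 : Real.exp (-3) ≤ 1 / 8 := by
    have a1 : (2 : ℝ) ≤ Real.exp 1 := by linarith [Real.add_one_le_exp (1 : ℝ)]
    have a2 : (2 : ℝ) ^ 3 ≤ Real.exp 3 := by
      rw [show (3 : ℝ) = (3 : ℕ) * 1 by norm_num, Real.exp_nat_mul]
      exact pow_le_pow_left₀ (by norm_num) a1 3
    rw [Real.exp_neg, inv_eq_one_div]
    exact one_div_le_one_div_of_le (by norm_num) (by linarith)
  refine (pow_le_pow_left₀ h5 h4 _).trans (le_trans ?_ (pow_le_pow_left₀ (Real.exp_nonneg _) h6 N))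
  rw [← Real.exp_nat_mul, ← Real.exp_nat_mul, Real.exp_le_exp]
  push_cast
  have h7 : 3 * (N : ℝ) ≤ A.card * B.card * (1 / (M + 1)) := by
    rw [mul_one_div, le_div_iff₀ hM]
    exact h
  linarith

end Random

theorem exists_sample (K : Type) [Fintype K] (g : ℕ) {ε : ℝ} (hε : 0 < ε) :
    ∃ (N M : ℕ) (e : K ↪ Fin (M + 1)) (ω : Fin N × Fin N → Fin (M + 1)), 0 < N ∧
      2 * g * ∑ l ∈ range (g + 1), (badSet (univ.map e) l ω).card ≤ N ∧
      ∀ (k : K) (A B : Finset (Fin N)), ε / 2 * N ≤ A.card → ε / 2 * N ≤ B.card →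
        ∃ a ∈ A, ∃ b ∈ B, ω (a, b) = e k := by
  classical
  obtain ⟨d, hd⟩ := exists_nat_gt (12 / ε ^ 2)
  have hd0 : 0 < d := by exact_mod_cast lt_trans (by positivity : (0 : ℝ) < 12 / ε ^ 2) hd
  rw [div_lt_iff₀ (by positivity)] at hd
  set κ := Fintype.card K with hκ
  set C : ℕ := ∑ l ∈ range (g + 1), (d * (l * l) * κ) ^ l with hC
  have hC0 : 0 < C := lt_of_lt_of_le (by simp)
    (single_le_sum (f := fun l => (d * (l * l) * κ) ^ l) (fun _ _ => Nat.zero_le _)
      (mem_range.2 (Nat.succ_pos g)))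
  have hC0' : (0 : ℝ) < C := by exact_mod_cast hC0
  set M := κ + 4 * g * C with hM
  set N := d * (M + 1) with hN
  have hMN : M + 1 ≤ N := Nat.le_mul_of_pos_left _ hd0
  obtain ⟨e⟩ : Nonempty (K ↪ Fin (M + 1)) :=
    Function.Embedding.nonempty_of_card_le (by rw [Fintype.card_fin]; omega)
  let X : (Fin N × Fin N → Fin (M + 1)) → ℝ := fun ω =>
    ∑ l ∈ range (g + 1), ((badSet (univ.map e) l ω).card : ℝ)
  let P : Finset (Finset (Fin N) × Finset (Fin N)) :=
    univ.filter fun p => ε / 2 * N ≤ p.1.card ∧ ε / 2 * N ≤ p.2.card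
  let Z : (Fin N × Fin N → Fin (M + 1)) → ℝ := fun ω => ∑ z ∈ (univ : Finset K) ×ˢ P,
    if ∀ a ∈ z.2.1, ∀ b ∈ z.2.2, ω (a, b) ≠ e z.1 then (1 : ℝ) else 0
  have hX : 𝔼 ω, X ω ≤ C := by
    simp only [X]
    rw [expect_sum_comm, hC]
    push_cast
    refine sum_le_sum fun l _ => (expect_badSet _ l).trans (le_of_eq ?_)
    congr 1
    rw [card_map, card_univ, hN]
    push_cast
    field_simp
    rfl
  have hZ : 𝔼 ω, Z ω < 1 / 2 := by
    simp only [Z]
    rw [expect_sum_comm]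
    refine lt_of_le_of_lt (sum_le_card_nsmul _ _ ((1 / 8 : ℝ) ^ N) fun z hz => ?_) ?_
    · obtain ⟨a1, a2⟩ := (mem_filter.1 (mem_product.1 hz).2).2
      refine expect_miss _ _ _ (le_trans ?_ (mul_le_mul a1 a2 (by positivity) (by positivity)))
      have a3 : (N : ℝ) = d * (M + 1) := by rw [hN]; push_cast; ring
      have a4 : (0 : ℝ) ≤ N * (M + 1) := by positivity
      calc 3 * (N : ℝ) * (M + 1) = 12 / 4 * (N * (M + 1)) := by ring
        _ ≤ d * ε ^ 2 / 4 * (N * (M + 1)) := mul_le_mul_of_nonneg_right (by linarith) a4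
        _ = ε / 2 * N * (ε / 2 * (d * (M + 1))) := by ring
        _ = _ := by rw [← a3]
    · have a1 : (((univ : Finset K) ×ˢ P).card : ℝ) ≤ κ * (2 ^ N * 2 ^ N) := by
        rw [card_product, card_univ]
        have : P.card ≤ 2 ^ N * 2 ^ N := (card_filter_le _ _).trans (by simp)
        exact_mod_cast Nat.mul_le_mul_left _ this
      have a2 : (2 * κ : ℝ) < 2 ^ N := by
        have b1 : κ < 2 ^ κ := Nat.lt_two_pow_self
        have b2 : 2 ^ (κ + 1) ≤ 2 ^ N := Nat.pow_le_pow_right two_pos (by omega)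
        have b3 : 2 * κ < 2 ^ N := by rw [pow_succ] at b2; omega
        exact_mod_cast b3
      have a3 : (2 : ℝ) ^ N * 2 ^ N * (1 / 8) ^ N * 2 ^ N = 1 := by
        rw [← mul_pow, ← mul_pow, ← mul_pow]
        norm_num
      rw [nsmul_eq_mul]
      refine lt_of_le_of_lt (mul_le_mul_of_nonneg_right a1 (by positivity)) ?_
      have a4 : (0 : ℝ) < 2 ^ N * 2 ^ N * (1 / 8) ^ N := by positivity
      nlinarith
  obtain ⟨ω, -, hω⟩ : ∃ ω ∈ (univ : Finset (Fin N × Fin N → Fin (M + 1))),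
      X ω / (2 * C) + Z ω < 1 := by
    refine exists_lt_of_expect_lt univ_nonempty ?_
    rw [expect_add_distrib, ← expect_div]
    have : (𝔼 ω, X ω) / (2 * C) ≤ 1 / 2 := by
      rw [div_le_iff₀ (by positivity)]
      linarith
    linarith
  have hz0 : ∀ z ∈ (univ : Finset K) ×ˢ P,
      (0 : ℝ) ≤ if ∀ a ∈ z.2.1, ∀ b ∈ z.2.2, ω (a, b) ≠ e z.1 then (1 : ℝ) else 0 :=
    fun z _ => by split_ifs <;> norm_num
  have hX0 : 0 ≤ X ω / (2 * C) :=
    div_nonneg (sum_nonneg fun _ _ => Nat.cast_nonneg _) (by positivity)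
  refine ⟨N, M, e, ω, by omega, ?_, fun k A B hA hB => ?_⟩
  · have a1 : X ω / (2 * C) < 1 := by linarith [show 0 ≤ Z ω from sum_nonneg hz0]
    rw [div_lt_one (by positivity)] at a1
    have a2 : ∑ l ∈ range (g + 1), (badSet (univ.map e) l ω).card ≤ 2 * C := by
      exact_mod_cast (show ((∑ l ∈ range (g + 1), (badSet (univ.map e) l ω).card : ℕ) : ℝ) ≤
        2 * C by push_cast; exact a1.le)
    calc _ ≤ 2 * g * (2 * C) := Nat.mul_le_mul_left _ a2
      _ = 4 * g * C := by ring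
      _ ≤ N := by omega
  · by_contra hc
    push Not at hc
    have a1 := single_le_sum hz0 (a := (k, A, B))
      (mem_product.2 ⟨mem_univ _, mem_filter.2 ⟨mem_univ _, hA, hB⟩⟩)
    rw [if_pos hc] at a1
    linarith [show Z ω = _ from rfl]

/-- The gadget. -/
theorem exists_gadget (K : Type) [Fintype K] (g : ℕ) {ε : ℝ} (hε : 0 < ε) :
    ∃ (Y : Type) (_ : Fintype Y) (_ : DecidableEq Y) (_ : Nonempty Y) (_ : Enc Y) (_ : EncInj Y)
      (ω : Y × Y → Option K), Sparse g ω ∧ Hit ε ω := by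
  classical
  obtain ⟨N, M, e, ω, hN, h1, h2⟩ := exists_sample K g hε
  let Z : Finset (Fin N) := (range (g + 1)).biUnion fun l =>
    (badSet (univ.map e) l ω).biUnion fun z => univ.image z.1
  have hZ : 2 * Z.card ≤ N := by
    refine le_trans ?_ h1
    rw [mul_assoc, mul_sum]
    refine Nat.mul_le_mul_left 2 (card_biUnion_le.trans (sum_le_sum fun l hl => ?_))
    rw [mul_comm]
    exact card_biUnion_le_card_mul _ _ _ fun z _ => card_image_le.trans
      (by simpa using Nat.lt_succ_iff.1 (mem_range.1 hl))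
  have hY : N ≤ 2 * Fintype.card {y : Fin N // y ∉ Z} := by
    rw [Fintype.card_subtype_compl, Fintype.card_fin, Fintype.card_coe]
    omega
  have hne : Nonempty {y : Fin N // y ∉ Z} := Fintype.card_pos_iff.1 (by omega)
  refine ⟨{y : Fin N // y ∉ Z}, inferInstance, inferInstance, hne, inferInstance, inferInstance,
    fun f => Function.partialInv e (ω (f.1.1, f.2.1)), fun F U hF hg h => ?_,
    fun k A B hA hB => ?_⟩
  · by_contra hc
    obtain ⟨v, hv⟩ := exists_enum U (not_lt.1 hc)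
    let a := F.equivFin.symm
    choose c1 hc1 using fun i => hv _ (h _ (a i).2).2.1
    choose c2 hc2 using fun i => hv _ (h _ (a i).2).2.2
    refine (v ⟨0, hF.card_pos⟩).2 (mem_biUnion.2 ⟨F.card, mem_range.2 (by omega), mem_biUnion.2
      ⟨(fun i => (v i).1, fun i => (c1 i, c2 i)), mem_filter.2 ⟨mem_univ _, fun i j hij => ?_,
        fun i => ?_⟩, mem_image_of_mem _ (mem_univ _)⟩⟩)
    · simp only [hc1, hc2, Prod.mk.injEq] at hij
      exact a.injective (Subtype.ext (Prod.ext (Subtype.ext hij.1) (Subtype.ext hij.2)))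
    · obtain ⟨k, hk⟩ := Option.ne_none_iff_exists'.1 (h _ (a i).2).1
      simp only [hc1, hc2]
      exact mem_map.2 ⟨k, mem_univ _, (e.injective.isPartialInv _ _).1 hk⟩
  · have hY' : (N : ℝ) ≤ 2 * Fintype.card {y : Fin N // y ∉ Z} := by exact_mod_cast hY
    obtain ⟨a, ha, b, hb, h3⟩ := h2 k (A.map (Function.Embedding.subtype _))
      (B.map (Function.Embedding.subtype _)) (by rw [card_map]; nlinarith)
      (by rw [card_map]; nlinarith)
    obtain ⟨a, ha', rfl⟩ := mem_map.1 ha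
    obtain ⟨b, hb', rfl⟩ := mem_map.1 hb
    exact ⟨a, ha', b, hb', (e.injective.isPartialInv _ _).2 h3.symm⟩

end Vale.Agent.N342
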