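import Vale.Agent.P339.CharB
import Vale.Agent.P339.Decode
import Vale.Agent.P339.Good
import Vale.Agent.P339.Junta
import Vale.Agent.P339.Key
import Vale.Agent.P339.Main
import Vale.Agent.P339.Rank
import Vale.Agent.P339.Stable
import Vale.Agent.P339.Star
import Vale.Agent.P339.Tower

/-!
Games with fibres of size at most two, perfect completeness and bounded degree on the left side.
-/

namespace Vale.Agent.N342

open Finset Vale.Agent.Lib.PCP Vale.Agent.Lib.PolyTime Vale.Agent.P339
open scoped BigOperators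

/-- Games with fibres of size at most two in which every left vertex has at most `d`
constraints. -/
def DGap (V A B : Type) [DecidableEq V] [DecidableEq B] (s : ℝ) (d : ℕ) :
    Promise (List (HEdge V A B)) where
  yes l := (HGap V A B s).yes l ∧ ∀ u, (l.countP fun c => decide (c.1 = u)) ≤ d
  no l := (HGap V A B s).no l ∧ ∀ u, (l.countP fun c => decide (c.1 = u)) ≤ d

theorem count_game {D S : Type} [Fintype S] [Nonempty S] (X : Sys S) {l : List (StarData D S)}
    (hl : ∀ i : Fin l.length, l[i].1 = i) (u : (X.L → ℕ) × ℕ) :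
    ((Key.game X l).countP fun c => decide (c.1 = u)) ≤ Fintype.card (X.Ω × X.H) := by
  classical
  have h1 : (((Key.game X l).countP fun c => decide (c.1 = u) : ℕ) : ℝ) ≤
      Fintype.card (X.Ω × X.H) := by
    rw [countP_eq_sum, Key.game, sum_map_flatMap, P325.sum_tuples]
    have h2 : ∀ x : X.L → Fin l.length,
        ((((univ : Finset (X.Ω × X.H)).toList.map (Key.edge X fun i => l[x i])).map fun c =>
          if decide (c.1 = u) = true then (1 : ℝ) else 0).sum) ≤
        if (fun p => (x p : ℕ)) = u.1 then (Fintype.card (X.Ω × X.H) : ℝ) else 0 := by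
      intro x
      rw [List.map_map, sum_map_univ]
      split_ifs with h
      · refine (sum_le_card_nsmul _ _ 1 fun w _ => ?_).trans (by simp)
        simp only [Function.comp_apply]
        split_ifs <;> norm_num
      · refine le_of_eq (sum_eq_zero fun w _ => if_neg fun e => h ?_)
        rw [← of_decide_eq_true e]
        exact funext fun p => (hl (x p)).symm
    refine (sum_le_sum fun x _ => h2 x).trans ?_
    rw [← sum_filter, sum_const, nsmul_eq_mul]
    refine mul_le_of_le_one_left (Nat.cast_nonneg _) ?_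
    have h3 : (univ.filter fun x : X.L → Fin l.length => (fun p => (x p : ℕ)) = u.1).card ≤ 1 :=
      card_le_one.2 fun x hx y hy => funext fun p => Fin.ext
        (congrFun ((mem_filter.1 hx).2.trans (mem_filter.1 hy).2.symm) p)
    exact_mod_cast h3
  exact_mod_cast h1

open StarAux in
/-- Games with fibres of size at most two and bounded left degree are hard. -/
theorem hard_game {δ : ℝ} (hδ : 0 < δ) :
    ∃ (V A B : Type) (_ : Enc V) (_ : EncInj V) (_ : DecidableEq V) (_ : Nonempty V) (_ : Fintype A)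
      (_ : Nonempty A) (_ : Fintype B) (_ : DecidableEq B) (_ : Nonempty B) (_ : Enc B)
      (_ : EncInj B) (d : ℕ), Hard (DGap V A B δ d) := by
  classical
  obtain ⟨θ, hθ, hX⟩ := core_thm (main_thm CharB.char_thm good_thm (stable_thm rank_thm junta_thm)
    decode_thm) innerTop_thm innerStep_thm pairStep_thm δ hδ
  obtain ⟨d, a, b, dV, F, hdV, hF⟩ := label_cover (θ / 2) (by positivity)
  obtain ⟨n, hn⟩ := exists_nat_one_div_lt (show 0 < θ / 2 by positivity)
  let i₀ : Fin dV × Fin (n + 1) := (⟨0, hdV⟩, 0)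
  have : Nonempty (Fin dV × Fin (n + 1)) := ⟨i₀⟩
  have : Nonempty (Fin (a + 1) × (Fin dV × Fin (n + 1)) × Fin (b + 1)) := ⟨(0, i₀, 0)⟩
  obtain ⟨X, h1, h2, h3⟩ := hX (Fin (a + 1) × (Fin dV × Fin (n + 1)) × Fin (b + 1))
  have hl : ∀ φ (i : Fin (stars 0 0 i₀ (fun i => (i.1 : ℕ)) (F φ)).length),
      (stars 0 0 i₀ (fun i => (i.1 : ℕ)) (F φ))[i].1 = i := fun φ i => by
    rw [Fin.getElem_fin]
    simp only [stars, List.getElem_map, List.getElem_range, StarAux.star]
  have h4 : ∀ φ c, c ∈ Key.game X (stars 0 0 i₀ (fun i => (i.1 : ℕ)) (F φ)) →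
      AtMostTwo c.2.2 := fun φ c hc => by
    obtain ⟨T, w, -, rfl⟩ := Key.mem_game X (stars_ne_nil _ _ _ _ (hF.wf φ)) hc
    exact Key.atMostTwo X h2 T w
  refine ⟨(X.L → ℕ) × ℕ, X.L → _, X.L → Option _, inferInstance, inferInstance, inferInstance,
    inferInstance, inferInstance, inferInstance, inferInstance, inferInstance, inferInstance,
    inferInstance, inferInstance, Fintype.card (X.Ω × X.H),
    fun φ => Key.game X (stars 0 0 i₀ (fun i => (i.1 : ℕ)) (F φ)),
    (Key.PT_game X).comp (pt_stars hF.pt _ _ _ _), fun φ hφ => ⟨⟨h4 φ, ?_⟩, count_game X (hl φ)⟩,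
    fun φ hφ => ⟨⟨h4 φ, Key.game_ne_nil X (stars_ne_nil _ _ _ _ (hF.wf φ)),
      Key.sound X h3 ⟨stars_ne_nil _ _ _ _ (hF.wf φ), nice_stars _ _ _ _ _, fun f g => ?_⟩⟩,
      count_game X (hl φ)⟩⟩
  · obtain ⟨f, g, hfg⟩ := complete 0 0 i₀ (hF.wf φ) (fun i => i.1.2) (hF.sat φ hφ)
    obtain ⟨lab, hlab⟩ := Key.complete (D := Fin dV × Fin (n + 1)) X h2 f g
    refine gap_yes_one.2 ⟨Key.game_ne_nil X (stars_ne_nil _ _ _ _ (hF.wf φ)), lab, fun c hc => ?_⟩
    obtain ⟨T, w, hT, rfl⟩ := Key.mem_game X (stars_ne_nil _ _ _ _ (hF.wf φ)) hc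
    exact hlab T w fun p i => hfg _ (hT p) i
  · exact (sound 0 0 i₀ (hF.wf φ) (hF.val φ hφ) (by positivity) f g).trans (by linarith)

end Vale.Agent.N342
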