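import Vale.Agent.Lib.PCP.Expander
import Vale.Agent.Lib.PCP.Spectral
import Vale.Agent.Lib.PCP.PrepCloud

/-!
Expanders with an arbitrarily small second eigenvalue, the mixing inequality, and lists which meet
along the edges of an expander.
-/

namespace Vale.Agent.N342

open Finset Vale.Agent.Lib.PCP Vale.Agent.Lib.PolyTime
open scoped BigOperators

/-- There is a polynomial time family of expanders with the spectral bound `lam`. -/
def HasFam (lam : ℝ) : Prop :=
  ∃ (D : Type) (_ : Fintype D) (_ : Nonempty D) (_ : Rev D) (ex : ℕ → D → ℕ → ℕ),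
    (∀ n, Schreier n (ex n)) ∧ (∀ n, Spec lam n (ex n)) ∧
      ∀ i, PT ∅ fun p : ℕ × ℕ => ex p.1 i p.2

theorem sum_expect_step {D : Type} [Fintype D] [Nonempty D] [Rev D] {n : ℕ} {nxt : D → ℕ → ℕ}
    (h : Schreier n nxt) (f : ℕ → ℝ) :
    ∑ x ∈ range n, 𝔼 i, f (nxt i x) = ∑ x ∈ range n, f x := by
  rw [← expect_sum_comm, expect_congr rfl fun i _ => h.sum_comp i f, Fintype.expect_const]

theorem HasFam.sq {a : ℝ} (ha : HasFam a) : HasFam (a ^ 2) := by
  obtain ⟨D, _, _, _, ex, h1, h2, h3⟩ := ha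
  let R : Rev (D × D) := ⟨fun p => (rev p.2, rev p.1), fun p => by simp [rev_rev]⟩
  refine ⟨D × D, inferInstance, inferInstance, R, fun n i v => ex n i.1 (ex n i.2 v),
    fun n => ⟨fun i v hv => (h1 n).lt _ _ ((h1 n).lt _ _ hv), fun i v hv => ?_⟩, fun n f hf => ?_,
    fun i => (h3 i.1).comp (PT.fst'.pair (h3 i.2))⟩
  · show ex n (rev i.2) (ex n (rev i.1) (ex n i.1 (ex n i.2 v))) = v
    rw [(h1 n).inv _ _ ((h1 n).lt _ _ hv), (h1 n).inv _ _ hv]
  · have a1 : ∀ x, 𝔼 i : D × D, f (ex n i.1 (ex n i.2 x)) =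
        𝔼 j, (fun y => 𝔼 i, f (ex n i y)) (ex n j x) := fun x => by
      rw [← univ_product_univ, expect_product, expect_comm]
    simp only [a1]
    refine (h2 n (fun y => 𝔼 i, f (ex n i y)) ((sum_expect_step (h1 n) f).trans hf)).trans ?_
    refine (mul_le_mul_of_nonneg_left (h2 n f hf) (sq_nonneg a)).trans (le_of_eq ?_)
    ring

theorem HasFam.mono {a b : ℝ} (ha : HasFam a) (h0 : 0 ≤ a) (h : a ≤ b) : HasFam b := by
  obtain ⟨D, _, _, _, ex, h1, h2, h3⟩ := ha
  exact ⟨D, _, inferInstance, _, ex, h1, fun n f hf => (h2 n f hf).trans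
    (mul_le_mul_of_nonneg_right (pow_le_pow_left₀ h0 h 2)
      (sum_nonneg fun _ _ => sq_nonneg _)), h3⟩

theorem hasFam_base : ∃ lam : ℝ, 0 ≤ lam ∧ lam < 1 ∧ HasFam lam := by
  obtain ⟨lam, h0, h1, h⟩ := spec_of_poinc (ExpIx ⊕ Unit) ExpIx expanders.pos
  have hs : ∀ n, Schreier n (Sum.elim (expanders.ex n) fun (_ : Unit) v => v) := fun n =>
    ⟨fun i v hv => by
      rcases i with i | i
      exacts [(expanders.sch n).lt i v hv, hv], fun i v hv => by
      rcases i with i | i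
      exacts [(expanders.sch n).inv i v hv, rfl]⟩
  refine ⟨lam, h0, h1, ExpIx ⊕ Unit, inferInstance, inferInstance, inferInstance,
    fun n => Sum.elim (expanders.ex n) fun _ v => v, hs, fun n => h n _ (Sum.inr ()) Sum.inl (hs n)
      (fun _ _ => rfl) Sum.inl_injective (expanders.poinc n), fun i => ?_⟩
  rcases i with i | i
  exacts [expanders.pt i, PT.snd']

theorem hasFam {lam : ℝ} (h : 0 < lam) : HasFam lam := by
  obtain ⟨a, h0, h1, ha⟩ := hasFam_base
  have h2 : ∀ k : ℕ, HasFam (a ^ (k + 1)) := by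
    intro k
    induction k with
    | zero => simpa using ha
    | succ k ih =>
      refine ih.sq.mono (by positivity) ?_
      rw [← pow_mul]
      exact pow_le_pow_of_le_one h0 h1.le (by omega)
  obtain ⟨k, hk⟩ := exists_pow_lt_of_lt_one h h1
  exact (h2 k).mono (by positivity) ((pow_le_pow_of_le_one h0 h1.le (by omega)).trans hk.le)

section Mixing

variable {D : Type} [Fintype D] [Nonempty D] [Rev D] {m : ℕ} {lam : ℝ} {nxt : D → ℕ → ℕ}

/-- The mixing inequality. -/
theorem mixing (hs : Schreier m nxt) (hp : Spec lam m nxt) (hl : 0 ≤ lam) (hm : 0 < m)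
    (f : ℕ → ℝ) : |∑ x ∈ range m, f x * 𝔼 i, f (nxt i x) - (∑ x ∈ range m, f x) ^ 2 / m| ≤
      lam * ∑ x ∈ range m, f x ^ 2 := by
  have hm' : (0 : ℝ) < m := by exact_mod_cast hm
  set c : ℝ := (∑ x ∈ range m, f x) / m with hc
  have hc' : ∑ x ∈ range m, f x = c * m := by rw [hc]; field_simp
  have g0 : ∑ x ∈ range m, (f x - c) = 0 := by
    rw [sum_sub_distrib, hc']
    simp [mul_comm]
  have a1 : ∀ x, 𝔼 i, f (nxt i x) = 𝔼 i, (f (nxt i x) - c) + c := fun x => by
    rw [expect_sub_distrib, Fintype.expect_const, sub_add_cancel]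
  have a2 : ∑ x ∈ range m, 𝔼 i, (f (nxt i x) - c) = 0 :=
    (sum_expect_step hs fun x => f x - c).trans g0
  have a3 : ∑ x ∈ range m, f x * 𝔼 i, f (nxt i x) - (∑ x ∈ range m, f x) ^ 2 / m =
      ∑ x ∈ range m, (f x - c) * 𝔼 i, (f (nxt i x) - c) := by
    have : ∀ x, f x * 𝔼 i, f (nxt i x) = (f x - c) * 𝔼 i, (f (nxt i x) - c) +
        c * 𝔼 i, (f (nxt i x) - c) + f x * c := fun x => by rw [a1]; ring
    simp only [this, sum_add_distrib, ← mul_sum, ← sum_mul, a2, hc']
    field_simp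
    ring
  have a4 : ∑ x ∈ range m, (f x - c) ^ 2 ≤ ∑ x ∈ range m, f x ^ 2 := by
    have : ∀ x, (f x - c) ^ 2 = f x ^ 2 - 2 * c * f x + c ^ 2 := fun x => by ring
    simp only [this, sum_add_distrib, sum_sub_distrib, ← mul_sum, hc', sum_const, card_range,
      nsmul_eq_mul]
    nlinarith [mul_nonneg hm'.le (sq_nonneg c)]
  have a5 := sum_mul_sq_le_sq_mul_sq (range m) (fun x => f x - c) fun x => 𝔼 i, (f (nxt i x) - c)
  have a6 := hp (fun x => f x - c) g0
  have a7 : 0 ≤ ∑ x ∈ range m, (f x - c) ^ 2 := sum_nonneg fun _ _ => sq_nonneg _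
  rw [a3]
  refine le_trans (abs_le_of_sq_le_sq' ?_ (mul_nonneg hl a7) |> abs_le.2)
    (mul_le_mul_of_nonneg_left a4 hl)
  refine a5.trans ((mul_le_mul_of_nonneg_left a6 a7).trans (le_of_eq ?_))
  ring

/-- Short lists which meet along all edges inside a set have a popular member. -/
theorem exists_popular {B : Type} [Fintype B] [DecidableEq B] [Nonempty B] (hs : Schreier m nxt)
    (hp : Spec lam m nxt) (hl : 0 ≤ lam) (S : ℕ → Prop) [DecidablePred S] (L : ℕ → Finset B)
    {t : ℕ} (ht : ∀ x, (L x).card ≤ t)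
    (h : ∀ x < m, ∀ i, S x → S (nxt i x) → ∃ b ∈ L x, b ∈ L (nxt i x)) :
    ∃ b, ∑ x ∈ range m, (if S x then (1 : ℝ) else 0) - lam * (t + 1) * m ≤
      t * ∑ x ∈ range m, if S x ∧ b ∈ L x then (1 : ℝ) else 0 := by
  let g : B → ℕ → ℝ := fun b x => if S x ∧ b ∈ L x then 1 else 0
  have g0 : ∀ b x, 0 ≤ g b x := fun b x => by simp only [g]; split_ifs <;> norm_num
  obtain ⟨b₀, -, hb⟩ := exists_max_image univ (fun b => ∑ x ∈ range m, g b x) univ_nonempty
  refine ⟨b₀, ?_⟩
  set P := ∑ x ∈ range m, g b₀ x with hP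
  set s := ∑ x ∈ range m, if S x then (1 : ℝ) else 0 with hs'
  have hP0 : 0 ≤ P := sum_nonneg fun x _ => g0 _ x
  have hs0 : 0 ≤ s := sum_nonneg fun x _ => by split_ifs <;> norm_num
  rcases hs0.eq_or_lt with h0 | h0
  · have : 0 ≤ lam * (t + 1) * m := by positivity
    have : 0 ≤ t * P := by positivity
    linarith
  have hm : 0 < m := Nat.pos_of_ne_zero fun e => by simp [hs', e] at h0
  have hm' : (0 : ℝ) < m := by exact_mod_cast hm
  have a1 := (abs_le.1 (mixing hs hp hl hm fun x => if S x then (1 : ℝ) else 0)).1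
  have a2 : ∑ x ∈ range m, (if S x then (1 : ℝ) else 0) ^ 2 = s :=
    sum_congr rfl fun x _ => by split_ifs <;> norm_num
  have a3 : ∀ b, ∑ x ∈ range m, g b x * 𝔼 i, g b (nxt i x) ≤
      (P / m + lam) * ∑ x ∈ range m, g b x := by
    intro b
    have b1 := (abs_le.1 (mixing hs hp hl hm (g b))).2
    have b2 : ∑ x ∈ range m, g b x ^ 2 = ∑ x ∈ range m, g b x :=
      sum_congr rfl fun x _ => by simp only [g]; split_ifs <;> norm_num
    have b3 : (∑ x ∈ range m, g b x) ^ 2 / m ≤ P / m * ∑ x ∈ range m, g b x := by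
      rw [div_mul_eq_mul_div, sq]
      exact div_le_div_of_nonneg_right (mul_le_mul_of_nonneg_right (hb b (mem_univ b))
        (sum_nonneg fun x _ => g0 b x)) hm'.le
    rw [b2] at b1
    linarith
  have a4 : ∑ x ∈ range m, (if S x then (1 : ℝ) else 0) * 𝔼 i, (if S (nxt i x) then 1 else 0) ≤
      ∑ b, ∑ x ∈ range m, g b x * 𝔼 i, g b (nxt i x) := by
    rw [sum_comm]
    refine sum_le_sum fun x hx => ?_
    simp only [mul_expect]
    rw [← expect_sum_comm]
    refine expect_le_expect fun i _ => ?_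
    have b0 : ∀ b ∈ univ, 0 ≤ g b x * g b (nxt i x) := fun b _ => mul_nonneg (g0 _ _) (g0 _ _)
    by_cases c1 : S x
    · by_cases c2 : S (nxt i x)
      · obtain ⟨b, b1, b2⟩ := h x (mem_range.1 hx) i c1 c2
        refine le_trans (le_of_eq ?_) (single_le_sum b0 (mem_univ b))
        simp [g, c1, c2, b1, b2]
      · simpa [c2] using sum_nonneg b0
    · simpa [c1] using sum_nonneg b0
  have a5 : ∑ b, ∑ x ∈ range m, g b x ≤ t * s := by
    rw [sum_comm, hs', mul_sum]
    refine sum_le_sum fun x _ => ?_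
    by_cases c1 : S x
    · simpa [g, c1] using ht x
    · simp [g, c1]
  have a6 := a4.trans ((sum_le_sum fun b _ => a3 b).trans (le_of_eq (mul_sum _ _ _).symm))
  have a7 := mul_le_mul_of_nonneg_left a5 (show 0 ≤ P / m + lam by positivity)
  rw [a2, ← hs'] at a1
  have a8 : s * (s / m - lam) ≤ s * ((P / m + lam) * t) := by
    have : s * (s / m - lam) = s ^ 2 / m - lam * s := by ring
    nlinarith
  have a9 := mul_le_mul_of_nonneg_right (le_of_mul_le_mul_left a8 h0) hm'.le
  have b1 : (s / m - lam) * m = s - lam * m := by field_simp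
  have b2 : (P / m + lam) * t * m = t * P + lam * t * m := by field_simp
  rw [b1, b2] at a9
  linarith

/-- The same inside all classes of a partition. -/
theorem exists_popular_cloud {B : Type} [Fintype B] [DecidableEq B] [Nonempty B]
    {ex : ℕ → D → ℕ → ℕ} (hs : ∀ k, Schreier k (ex k)) (hp : ∀ k, Spec lam k (ex k))
    (hl : 0 ≤ lam) (n : ℕ) (w : ℕ → ℕ) (S : ℕ → Prop) [DecidablePred S] (L : ℕ → Finset B)
    {t : ℕ} (ht : ∀ x, (L x).card ≤ t)
    (h : ∀ x < n, ∀ i, S x → S (clStep ex n w i x) → ∃ b ∈ L x, b ∈ L (clStep ex n w i x)) :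
    ∃ β : ℕ → B, ∑ x ∈ range n, (if S x then (1 : ℝ) else 0) - lam * (t + 1) * n ≤
      t * ∑ x ∈ range n, if S x ∧ β (w x) ∈ L x then (1 : ℝ) else 0 := by
  choose β hβ using fun a => exists_popular (hs (cloud n w a).length) (hp _) hl
    (fun r => S ((cloud n w a).getD r 0)) (fun r => L ((cloud n w a).getD r 0)) (fun _ => ht _)
    fun r hr i => by
      rw [← clStep_getD ex i hr]
      exact h _ (mem_cloud.1 (getD_mem_cloud hr)).1 i
  refine ⟨β, ?_⟩
  have hm : ∀ x ∈ range n, w x ∈ (range n).image w := fun x hx => mem_image_of_mem w hx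
  have h1 : (n : ℝ) = ∑ _x ∈ range n, (1 : ℝ) := by simp
  rw [h1, ← sum_fiberwise_of_maps_to hm, ← sum_fiberwise_of_maps_to hm (f := fun _ => (1 : ℝ)),
    ← sum_fiberwise_of_maps_to hm
      (f := fun x => if S x ∧ β (w x) ∈ L x then (1 : ℝ) else 0), mul_sum, mul_sum,
    ← sum_sub_distrib]
  refine sum_le_sum fun a _ => ?_
  have h2 : ∑ x ∈ (range n).filter (fun x => w x = a),
      (if S x ∧ β (w x) ∈ L x then (1 : ℝ) else 0) =
      ∑ x ∈ (range n).filter (fun x => w x = a), if S x ∧ β a ∈ L x then (1 : ℝ) else 0 :=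
    sum_congr rfl fun x hx => by rw [(mem_filter.1 hx).2]
  rw [h2, ← sum_cloud n w a, ← sum_cloud n w a, ← sum_cloud n w a]
  simpa using hβ a

end Mixing

end Vale.Agent.N342
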