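import Vale.Agent.N342.LongCode
import Vale.Agent.N342.Mix
import Vale.Agent.N342.Game
import Vale.Agent.N342.LG

/-!
From games with fibres of size two to graphs of bounded degree: four colours against small
independent sets.
-/

namespace Vale.Agent.N342

open Finset Vale.Agent.Lib.PCP Vale.Agent.Lib.PolyTime Vale.Agent.P339
open scoped BigOperators

section Four

variable {V A B D : Type}

/-- The constraint at a position. -/
noncomputable def cst [Nonempty V] (L : List (HEdge V A B)) (x : ℕ) : HEdge V A B :=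
  L.getD x (Classical.arbitrary V, Classical.arbitrary V, fun _ => none)

theorem cst_mem [Nonempty V] {L : List (HEdge V A B)} {x : ℕ} (hx : x < L.length) :
    cst L x ∈ L := by
  rw [cst, List.getD_eq_getElem _ _ hx]
  exact List.getElem_mem hx

theorem countP_cst [Nonempty V] (L : List (HEdge V A B)) (p : HEdge V A B → Bool) :
    (L.countP p : ℝ) = ∑ x ∈ range L.length, if p (cst L x) = true then (1 : ℝ) else 0 := by
  rw [countP_eq_sum]
  exact sum_map_eq_sum_range _ _ _

/-- The number of the right vertex at a position. -/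
noncomputable def rkey [Nonempty V] [Enc V] (L : List (HEdge V A B)) (x : ℕ) : ℕ :=
  name (cst L x).2.1

open Classical in
/-- Two words differ at all pairs of labels with the same image. -/
noncomputable def comp (f f' : A → Option B) (y y' : A → Fin 4) : Bool :=
  decide (∀ a a' b, f a = some b → f' a' = some b → y a ≠ y' a')

variable [Nonempty V] [Enc V] [DecidableEq V] [Fintype D]

/-- The test for arcs. -/
noncomputable def adj4 (ex : ℕ → D → ℕ → ℕ) (L : List (HEdge V A B))
    (p q : ℕ × (A → Fin 4)) : Bool :=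
  (List.range L.length).any fun x => decide ((cst L x).1 = (cst L p.1).1) &&
    ((univ : Finset D).toList.map fun i => clStep ex L.length (rkey L) i x).any fun x' =>
      decide ((cst L x').1 = (cst L q.1).1) && comp (cst L x).2.2 (cst L x').2.2 p.2 q.2

theorem adj4_iff {ex : ℕ → D → ℕ → ℕ} {L : List (HEdge V A B)} {p q : ℕ × (A → Fin 4)} :
    adj4 ex L p q = true ↔ ∃ x < L.length, ∃ i, (cst L x).1 = (cst L p.1).1 ∧
      (cst L (clStep ex L.length (rkey L) i x)).1 = (cst L q.1).1 ∧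
      ∀ a a' b, (cst L x).2.2 a = some b →
        (cst L (clStep ex L.length (rkey L) i x)).2.2 a' = some b → p.2 a ≠ q.2 a' := by
  simp only [adj4, comp, List.any_eq_true, List.mem_range, Bool.and_eq_true, decide_eq_true_eq,
    List.mem_map, mem_toList, mem_univ, true_and, exists_exists_eq_and]
  exact exists_congr fun x => and_congr_right fun _ =>
    ⟨fun ⟨h, i, h'⟩ => ⟨i, h, h'⟩, fun ⟨i, h, h'⟩ => ⟨h, i, h'⟩⟩

variable [Fintype A] [DecidableEq A]

/-- The graph of a game. -/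
noncomputable def four (ex : ℕ → D → ℕ → ℕ) (L : List (HEdge V A B)) : LG (ℕ × (A → Fin 4)) :=
  mk (prs (List.range L.length) (univ : Finset (A → Fin 4)).toList) (adj4 ex L)

theorem mem_four (ex : ℕ → D → ℕ → ℕ) {L : List (HEdge V A B)} {p : ℕ × (A → Fin 4)} :
    p ∈ (four ex L).1 ↔ p.1 < L.length := by
  simp [four, mk, mem_prs]

theorem length_four (ex : ℕ → D → ℕ → ℕ) (L : List (HEdge V A B)) :
    (four ex L).1.length = L.length * Fintype.card (A → Fin 4) := by
  simp [four, mk, length_prs]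

theorem wf_four (ex : ℕ → D → ℕ → ℕ) (L : List (HEdge V A B)) : WF (four ex L) :=
  wf_mk (nodup_prs List.nodup_range (nodup_toList _)) _

omit [DecidableEq V] [Fintype D] [DecidableEq A] in
theorem PT_cst [Enc B] {α : Type} [Enc α] {l : α → List (HEdge V A B)} {x : α → ℕ} (hl : PT ∅ l)
    (hx : PT ∅ x) : PT ∅ fun a => cst (l a) (x a) :=
  PT.getD hl hx (PT.const _)

omit [Nonempty V] [Enc V] [DecidableEq V] [Fintype D] [DecidableEq A] in
theorem PT_comp [Finite B] [Enc B] [EncInj B] {α : Type} [Enc α] {f f' : α → A → Option B}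
    {y y' : α → A → Fin 4} (hf : PT ∅ f) (hf' : PT ∅ f') (hy : PT ∅ y) (hy' : PT ∅ y') :
    PT ∅ fun a => comp (f a) (f' a) (y a) (y' a) :=
  PT.finComp (fun z : ((A → Option B) × (A → Option B)) × (A → Fin 4) × (A → Fin 4) =>
    comp z.1.1 z.1.2 z.2.1 z.2.2) ((hf.pair hf').pair (hy.pair hy'))

omit [DecidableEq V] [Fintype D] [DecidableEq A] in
theorem PT_step [Enc B] {ex : ℕ → D → ℕ → ℕ} {i : D} (hex : PT ∅ fun p : ℕ × ℕ => ex p.1 i p.2)
    {α : Type} [Enc α] {l : α → List (HEdge V A B)} {x : α → ℕ} (hl : PT ∅ l) (hx : PT ∅ x) :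
    PT ∅ fun a => clStep ex (l a).length (rkey (l a)) i (x a) := by
  have h1 : PT ∅ fun p : List (HEdge V A B) × ℕ => rkey p.1 p.2 :=
    PT.name (PT_cst PT.fst' PT.snd').snd.fst
  have h2 : PT ∅ fun p : List (HEdge V A B) × ℕ => clStep ex p.1.length (rkey p.1) i p.2 :=
    PT_clStep (n := fun L : List (HEdge V A B) => L.length) (w := rkey) hex (PT.length PT.id)
      (PBd.length (A := ∅) PT.id) h1
  exact PT.comp (g := fun p : List (HEdge V A B) × ℕ => clStep ex p.1.length (rkey p.1) i p.2)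
    (f := fun a => (l a, x a)) h2 (hl.pair hx)

omit [DecidableEq A] in
theorem PT_adj4 [EncInj V] [Finite B] [Enc B] [EncInj B] {ex : ℕ → D → ℕ → ℕ}
    (hex : ∀ i, PT ∅ fun p : ℕ × ℕ => ex p.1 i p.2) {α : Type} [Enc α]
    {l : α → List (HEdge V A B)} {p q : α → ℕ × (A → Fin 4)} (hl : PT ∅ l) (hp : PT ∅ p)
    (hq : PT ∅ q) : PT ∅ fun a => adj4 ex (l a) (p a) (q a) := by
  have l1 : PT ∅ fun z : α × ℕ => l z.1 := hl.comp PT.fst'
  have l2 : PT ∅ fun z : (α × ℕ) × ℕ => l z.1.1 := hl.comp PT.fst'.fst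
  have p1 : PT ∅ fun z : α × ℕ => p z.1 := hp.comp PT.fst'
  have p2 : PT ∅ fun z : (α × ℕ) × ℕ => p z.1.1 := hp.comp PT.fst'.fst
  have q2 : PT ∅ fun z : (α × ℕ) × ℕ => q z.1.1 := hq.comp PT.fst'.fst
  have h1 : PT ∅ fun z : (α × ℕ) × ℕ =>
      comp (cst (l z.1.1) z.1.2).2.2 (cst (l z.1.1) z.2).2.2 (p z.1.1).2 (q z.1.1).2 :=
    PT_comp (PT_cst l2 PT.fst'.snd).snd.snd (PT_cst l2 PT.snd').snd.snd p2.snd q2.snd
  have h2 : PT ∅ fun z : (α × ℕ) × ℕ =>
      decide ((cst (l z.1.1) z.2).1 = (cst (l z.1.1) (q z.1.1).1).1) :=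
    PT.eq (PT_cst l2 PT.snd').fst (PT_cst l2 q2.fst).fst
  have h3 : PT ∅ fun z : α × ℕ => decide ((cst (l z.1) z.2).1 = (cst (l z.1) (p z.1).1).1) :=
    PT.eq (PT_cst l1 PT.snd').fst (PT_cst l1 p1.fst).fst
  have h4 : PT ∅ fun z : α × ℕ =>
      (univ : Finset D).toList.map fun i => clStep ex (l z.1).length (rkey (l z.1)) i z.2 :=
    PT.mapConst _ fun i _ => PT_step (hex i) l1 PT.snd'
  have h5 := PT.any (f := fun (z : α × ℕ) x' =>
    decide ((cst (l z.1) x').1 = (cst (l z.1) (q z.1).1).1) &&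
      comp (cst (l z.1) z.2).2.2 (cst (l z.1) x').2.2 (p z.1).2 (q z.1).2) h4 (h2.and h1)
  exact PT.any (f := fun a x => decide ((cst (l a) x).1 = (cst (l a) (p a).1).1) &&
      ((univ : Finset D).toList.map fun i => clStep ex (l a).length (rkey (l a)) i x).any fun x' =>
        decide ((cst (l a) x').1 = (cst (l a) (q a).1).1) &&
          comp (cst (l a) x).2.2 (cst (l a) x').2.2 (p a).2 (q a).2)
    (PT.range (PT.length hl) (PBd.length hl)) (h3.and h5)

theorem PT_four [EncInj V] [Finite B] [Enc B] [EncInj B] {ex : ℕ → D → ℕ → ℕ}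
    (hex : ∀ i, PT ∅ fun p : ℕ × ℕ => ex p.1 i p.2) :
    PT ∅ (four ex : List (HEdge V A B) → LG (ℕ × (A → Fin 4))) :=
  PT_mk (P := adj4 ex)
    (PT_prs (PT.range (PT.length PT.id) (PBd.length (A := ∅) PT.id)) (PT.const _))
    (PT_adj4 hex PT.fst' PT.snd'.fst PT.snd'.snd)

variable [Rev D] {ex : ℕ → D → ℕ → ℕ} {L : List (HEdge V A B)}

theorem col_four [EncInj V] [DecidableEq B] (hex : ∀ k, Schreier k (ex k))
    (h : Sat satH L) : P342.Col 4 (four ex L).2 := by
  obtain ⟨lab, hlab⟩ := h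
  refine ⟨fun p => p.2 (lab.1 (cst L p.1).1), fun e he => ?_⟩
  obtain ⟨x, hx, i, h1, h2, h3⟩ := adj4_iff.1 (mem_mk.1 he).2.2
  have hm := mem_cloud.1 (clStep_mem hex (rkey L) i hx)
  have a1 := of_decide_eq_true (hlab _ (cst_mem hx))
  have a2 := of_decide_eq_true (hlab _ (cst_mem hm.1))
  rw [name_injective hm.2, h2] at a2
  rw [h1] at a1
  exact h3 _ _ _ a1 a2

theorem deg_four (hex : ∀ k, Schreier k (ex k)) {d : ℕ}
    (h : ∀ u, (L.countP fun c => decide (c.1 = u)) ≤ d) :
    Deg (d * (Fintype.card D * (d * Fintype.card (A → Fin 4)))) (four ex L) := by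
  classical
  let C : ℕ → Finset ℕ := fun x => (range L.length).filter fun y => (cst L y).1 = (cst L x).1
  have hC : ∀ x, (C x).card ≤ d := fun x => by
    have h1 := countP_cst L fun c => decide (c.1 = (cst L x).1)
    have h2 : ((C x).card : ℝ) = L.countP fun c => decide (c.1 = (cst L x).1) := by
      rw [h1, card_filter]
      simp
    exact le_trans (by exact_mod_cast h2.le) (h _)
  let T : ℕ → Finset (ℕ × (A → Fin 4)) := fun x =>
    (C x).biUnion fun y => (univ : Finset D).biUnion fun i =>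
    C (clStep ex L.length (rkey L) i y) ×ˢ univ
  have hT : ∀ x, (T x).card ≤ d * (Fintype.card D * (d * Fintype.card (A → Fin 4))) := fun x =>
    (card_biUnion_le_card_mul _ _ _ fun y _ => card_biUnion_le_card_mul _ _ _ fun i _ => by
      rw [card_product]
      exact Nat.mul_le_mul_right _ (hC _)).trans (Nat.mul_le_mul_right _ (hC x))
  intro u
  constructor
  · refine le_trans (countP_le_card (wf_four ex L).nd2 _ (T u.1) Prod.snd (fun e he h1 => ?_)
      fun p _ p' _ h1 h2 h3 => Prod.ext ((of_decide_eq_true h1).trans (of_decide_eq_true h2).symm)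
        h3) (hT _)
    obtain ⟨x, hx, i, a1, a2, -⟩ := adj4_iff.1 (mem_mk.1 he).2.2
    rw [of_decide_eq_true h1] at a1
    have a3 : e.2.1 ∈ C (clStep ex L.length (rkey L) i x) :=
      mem_filter.2 ⟨mem_range.2 ((mem_four ex).1 (mem_mk.1 he).2.1), a2.symm⟩
    exact mem_biUnion.2 ⟨x, mem_filter.2 ⟨mem_range.2 hx, a1⟩, mem_biUnion.2 ⟨i, mem_univ _,
      mem_product.2 ⟨a3, mem_univ _⟩⟩⟩
  · refine le_trans (countP_le_card (wf_four ex L).nd2 _ (T u.1) Prod.fst (fun e he h1 => ?_)
      fun p _ p' _ h1 h2 h3 => Prod.ext h3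
        ((of_decide_eq_true h1).trans (of_decide_eq_true h2).symm)) (hT _)
    obtain ⟨x, hx, i, a1, a2, -⟩ := adj4_iff.1 (mem_mk.1 he).2.2
    rw [of_decide_eq_true h1] at a2
    have hs := schreier_clStep hex L.length (rkey L)
    have a3 : e.1.1 ∈ C (clStep ex L.length (rkey L) (rev i) (clStep ex L.length (rkey L) i x)) :=
      mem_filter.2 ⟨mem_range.2 ((mem_four ex).1 (mem_mk.1 he).1), by rw [hs.inv i x hx, a1]⟩
    exact mem_biUnion.2 ⟨_, mem_filter.2 ⟨mem_range.2 (hs.lt i x hx), a2⟩, mem_biUnion.2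
      ⟨rev i, mem_univ _, mem_product.2 ⟨a3, mem_univ _⟩⟩⟩

theorem fibre_le_two {A B : Type} [Fintype A] [DecidableEq A] [DecidableEq B] {f : A → Option B}
    (hf : AtMostTwo f) (s : Bool) (y : B ⊕ A × Bool) :
    (univ.filter fun a => (f a).elim (Sum.inr (a, s)) Sum.inl = y).card ≤ 2 := by
  by_contra h
  obtain ⟨a, a', a'', h1, h2, h3, n1, n2, n3⟩ := two_lt_card_iff.1 (not_le.1 h)
  replace h1 := (mem_filter.1 h1).2
  replace h2 := (mem_filter.1 h2).2
  replace h3 := (mem_filter.1 h3).2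
  rcases e1 : f a with _ | b <;> rcases e2 : f a' with _ | b' <;> rcases e3 : f a'' with _ | b'' <;>
    rw [e1] at h1 <;> rw [e2] at h2 <;> rw [e3] at h3 <;> subst h1 <;>
    simp only [Option.elim, Sum.inr.injEq, Sum.inl.injEq, Prod.mk.injEq, reduceCtorEq,
      and_true] at h2 h3
  · exact n1 h2.symm
  · subst h2 h3
    rcases hf a a' a'' _ e1 e2 e3 with h | h | h
    exacts [n1 h, n2 h, n3 h]

theorem exists_enum {A : Type} [Nonempty A] {t : ℕ} (s : Finset A) (h : s.card ≤ t) :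
    ∃ f : Fin t → A, ∀ a ∈ s, ∃ j, f j = a := by
  classical
  refine ⟨fun j => s.toList.getD j (Classical.arbitrary A), fun a ha => ?_⟩
  have h1 : s.toList.idxOf a < s.toList.length := List.idxOf_lt_length_iff.2 (mem_toList.2 ha)
  refine ⟨⟨s.toList.idxOf a, lt_of_lt_of_le h1 (by simpa using h)⟩, ?_⟩
  simp only
  rw [List.getD_eq_getElem _ _ h1, List.getElem_idxOf]

theorem ind_four [Nonempty A] [Fintype B] [DecidableEq B] [Nonempty B] [Nonempty D]
    (hex : ∀ k, Schreier k (ex k)) {ε lam δ : ℝ} {t : ℕ} (hp : ∀ k, Spec lam k (ex k))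
    (hl : 0 ≤ lam) (hε : 0 < ε) (hnum : lam * (t + 1) + t * (t * δ) < ε / 2)
    (T : Finset (A → Fin 4) → Finset A) (hT : ∀ I, (T I).card ≤ t)
    (hT' : ∀ π π' : A → B ⊕ A × Bool, (∀ y, (univ.filter fun b => π b = y).card ≤ 2) →
      (∀ y, (univ.filter fun b => π' b = y).card ≤ 2) → ∀ I I' : Finset (A → Fin 4),
        ε / 2 * Fintype.card (A → Fin 4) ≤ I.card → ε / 2 * Fintype.card (A → Fin 4) ≤ I'.card →
        (∀ x ∈ I, ∀ x' ∈ I', ∃ b b', π b = π' b' ∧ ¬ x b ≠ x' b') →
        ∃ b ∈ T I, ∃ b' ∈ T I', π b = π' b')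
    (h : (HGap V A B δ).no L) : Ind ε (four ex L) := by
  classical
  intro S hS hind
  by_contra hcon
  rw [not_le, length_four] at hcon
  set n := L.length with hn
  have hn0 : (0 : ℝ) < n := by exact_mod_cast List.length_pos_iff.2 h.2.1
  set Y : ℝ := (Fintype.card (A → Fin 4) : ℝ) with hY
  have hY0 : 0 < Y := by rw [hY]; exact_mod_cast Fintype.card_pos
  let I : ℕ → Finset (A → Fin 4) := fun x => univ.filter fun y => (x, y) ∈ S
  let good : ℕ → Prop := fun x => x < n ∧ ε / 2 * Y ≤ (I x).card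
  let S' : V → Prop := fun u => ∃ x, good x ∧ (cst L x).1 = u
  have hrep : ∀ u, ∃ x, S' u → good x ∧ (cst L x).1 = u := fun u => by
    by_cases h1 : S' u
    · exact h1.imp fun x hx _ => hx
    · exact ⟨0, fun h2 => absurd h2 h1⟩
  choose rep hrep using hrep
  have a1 : (S.card : ℝ) ≤ ∑ x ∈ range n, ((if S' (cst L x).1 then (1 : ℝ) else 0) + ε / 2) * Y := by
    rw [card_eq_sum_card_fiberwise (f := Prod.fst) (t := range n)
      fun p hp => mem_range.2 ((mem_four ex).1 (hS p hp))]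
    push_cast
    refine sum_le_sum fun x hx => ?_
    have b1 : ((S.filter fun p => p.1 = x).card : ℝ) ≤ (I x).card := by
      refine Nat.cast_le.2 (card_le_card_of_injOn Prod.snd (fun p hp => ?_) fun p hp q hq e => ?_)
      · obtain ⟨c1, rfl⟩ := mem_filter.1 (mem_coe.1 hp)
        exact mem_filter.2 ⟨mem_univ _, c1⟩
      · exact Prod.ext ((mem_filter.1 (mem_coe.1 hp)).2.trans
          (mem_filter.1 (mem_coe.1 hq)).2.symm) e
    refine b1.trans ?_
    split_ifs with b2
    · have : ((I x).card : ℝ) ≤ Y := by rw [hY]; exact_mod_cast card_le_univ _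
      nlinarith
    · rw [zero_add]
      exact (not_le.1 fun b3 => b2 ⟨x, ⟨mem_range.1 hx, b3⟩, rfl⟩).le
  have a2 : ε / 2 * n ≤ ∑ x ∈ range n, if S' (cst L x).1 then (1 : ℝ) else 0 := by
    rw [← sum_mul, sum_add_distrib, sum_const, card_range, nsmul_eq_mul] at a1
    push_cast at hcon
    have := lt_of_mul_lt_mul_right (((mul_assoc _ _ _).trans_lt hcon).trans_le a1) hY0.le
    linarith
  obtain ⟨β, hβ⟩ := exists_popular_cloud hex hp hl n (rkey L) (fun x => S' (cst L x).1)
    (fun x => ((T (I (rep (cst L x).1))).image (cst L x).2.2).erase none) (t := t)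
    (fun x => card_erase_le.trans (card_image_le.trans (hT _))) fun x hx i c1 c2 => by
      set x' := clStep ex n (rkey L) i x with hx'
      have hm := mem_cloud.1 (clStep_mem hex (rkey L) i hx)
      obtain ⟨g1, g2⟩ := hrep _ c1
      obtain ⟨g3, g4⟩ := hrep _ c2
      obtain ⟨a, b1, a', b2, b3⟩ := hT'
        (fun a => ((cst L x).2.2 a).elim (Sum.inr (a, false)) Sum.inl)
        (fun a => ((cst L x').2.2 a).elim (Sum.inr (a, true)) Sum.inl)
        (fibre_le_two (h.1 _ (cst_mem hx)) _) (fibre_le_two (h.1 _ (cst_mem hm.1)) _) _ _ g1.2 g3.2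
        fun y hy y' hy' => by
          by_contra hne
          push Not at hne
          have k1 : adj4 ex L (rep (cst L x).1, y) (rep (cst L x').1, y') = true :=
            adj4_iff.2 ⟨x, hx, i, g2.symm, g4.symm, fun a a' b e1 e2 => hne a a' (by
              rw [e1, e2]
              rfl)⟩
          exact hind ((rep (cst L x).1, y), (rep (cst L x').1, y'))
            (mem_mk.2 ⟨(mem_four ex).2 g1.1, (mem_four ex).2 g3.1, k1⟩)
            ⟨(mem_filter.1 hy).2, (mem_filter.1 hy').2⟩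
      rcases e1 : (cst L x).2.2 a with _ | b <;> rcases e2 : (cst L x').2.2 a' with _ | b' <;>
        simp only [e1, e2, Option.elim, Sum.inr.injEq, Sum.inl.injEq, Prod.mk.injEq, reduceCtorEq,
          and_false] at b3
      subst b3
      exact ⟨some b, mem_erase.2 ⟨by simp, mem_image.2 ⟨a, b1, e1⟩⟩,
        mem_erase.2 ⟨by simp, mem_image.2 ⟨a', b2, e2⟩⟩⟩
  choose en hen using fun u => exists_enum (T (I (rep u))) (hT _)
  have a3 : ∑ x ∈ range n, (if S' (cst L x).1 ∧ β (rkey L x) ∈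
      ((T (I (rep (cst L x).1))).image (cst L x).2.2).erase none then (1 : ℝ) else 0) ≤
      ∑ j : Fin t, (cnt satH L
        (fun u => en u j, fun v => (β (name v)).getD (Classical.arbitrary B)) : ℝ) := by
    simp only [cnt, countP_cst]
    rw [sum_comm]
    refine sum_le_sum fun x _ => ?_
    have b0 : ∀ j ∈ (univ : Finset (Fin t)), (0 : ℝ) ≤ if satH (cst L x) (fun u => en u j,
        fun v => (β (name v)).getD (Classical.arbitrary B)) = true then 1 else 0 :=
      fun j _ => by split_ifs <;> norm_num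
    split_ifs with b1
    · obtain ⟨b2, b3⟩ := mem_erase.1 b1.2
      obtain ⟨a, b4, b5⟩ := mem_image.1 b3
      obtain ⟨j, rfl⟩ := hen _ a b4
      refine le_trans (le_of_eq (if_pos (decide_eq_true ?_)).symm) (single_le_sum b0 (mem_univ j))
      obtain ⟨b, hb⟩ := Option.ne_none_iff_exists'.1 b2
      rw [b5]
      refine hb.trans (congrArg some ?_)
      show b = (β (rkey L x)).getD _
      rw [hb]
      rfl
    · exact sum_nonneg b0
  have a4 := a3.trans ((sum_le_card_nsmul _ _ (δ * n) fun j _ => h.2.2 _).trans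
    (le_of_eq (by simp : _ = t * (δ * n))))
  have a5 := mul_le_mul_of_nonneg_left a4 (Nat.cast_nonneg (α := ℝ) t)
  have a6 := mul_lt_mul_of_pos_right hnum hn0
  nlinarith

end Four

/-- Four colours against small independent sets, for lists. -/
theorem hard_four {ε : ℝ} (hε : 0 < ε) :
    ∃ (V : Type) (_ : Enc V) (_ : EncInj V) (_ : DecidableEq V) (Δ : ℕ),
      Hard (⟨fun G => WF G ∧ Deg Δ G ∧ P342.Col 4 G.2,
        fun G => WF G ∧ Deg Δ G ∧ G.1 ≠ [] ∧ Ind ε G⟩ : Promise (LG V)) := by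
  classical
  obtain ⟨t, ht⟩ := long_code_four (ε / 2) (half_pos hε)
  have h0 : (0 : ℝ) < ε / (8 * (t + 1)) := by positivity
  have h1 : (0 : ℝ) < ε / (8 * (t + 1) ^ 2) := by positivity
  obtain ⟨D, _, _, _, ex, hs, hp, hpt⟩ := hasFam h0
  obtain ⟨V, A, B, _, _, _, _, _, _, _, _, _, _, _, d, hH⟩ := hard_game h1
  obtain ⟨T, hT, hT'⟩ := ht A
  refine ⟨ℕ × (A → Fin 4), inferInstance, inferInstance, inferInstance, _,
    hH.red ⟨four ex, PT_four hpt, fun L hL => ⟨wf_four ex L, deg_four hs hL.2,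
      col_four hs (gap_yes_one.1 hL.1.2).2⟩, fun L hL => ⟨wf_four ex L, deg_four hs hL.2, ?_,
      ind_four hs hp h0.le hε ?_ T hT (hT' _) hL.1⟩⟩⟩
  · rw [← List.length_pos_iff, length_four]
    exact Nat.mul_pos (List.length_pos_iff.2 hL.1.2.1) Fintype.card_pos
  · have a1 : ε / (8 * (t + 1)) * (t + 1) = ε / 8 := by field_simp
    have a2 : (t : ℝ) * (t * (ε / (8 * (t + 1) ^ 2))) ≤ ε / 8 := by
      rw [← mul_assoc, ← mul_div_assoc, div_le_div_iff₀ (by positivity) (by positivity)]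
      have : (0 : ℝ) ≤ t := Nat.cast_nonneg t
      nlinarith [mul_nonneg this hε.le]
    linarith

end Vale.Agent.N342
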