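import Vale.Agent.P342.LongCode

/-!
The long code lemma for an arbitrary alphabet with rare second choices, and the case of four
symbols and fibres of size two.
-/

namespace Vale.Agent.N342

open Finset hiding dens
open Vale.Agent.P342.LCode hiding up sens_up dens_up exists_slots Sep long_code_fin
open scoped BigOperators

/-- Dense sets of words get short lists of coordinates, such that the lists of two sets without an
edge between them meet after projections with fibres of size at most `d`. -/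
def LongCode (V : Type) [Fintype V] (E : V → V → Prop) (d : ℕ) : Prop :=
  ∀ ε : ℝ, 0 < ε → ∃ t : ℕ, ∀ (B : Type) [Fintype B] [DecidableEq B],
    ∃ T : Finset (B → V) → Finset B, (∀ I, (T I).card ≤ t) ∧
      ∀ (B' : Type) [DecidableEq B'] (π π' : B → B'),
        (∀ y, (univ.filter fun b => π b = y).card ≤ d) →
        (∀ y, (univ.filter fun b => π' b = y).card ≤ d) →
        ∀ I I' : Finset (B → V),
          ε * Fintype.card (B → V) ≤ I.card → ε * Fintype.card (B → V) ≤ I'.card →
          (∀ x ∈ I, ∀ x' ∈ I', ∃ b b', π b = π' b' ∧ ¬ E (x b) (x' b')) →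
          ∃ b ∈ T I, ∃ b' ∈ T I', π b = π' b'

section

variable {B V N : Type} [Fintype B] [DecidableEq B]

/-- A word of `I` can be read, with a second choice on `R`. -/
def up (s : V × N → V) (I : Finset (B → V)) (R : B → Bool) (z : B → V × N) : Prop :=
  ∃ y ∈ I, ∀ b, y b = (z b).1 ∨ (R b = true ∧ y b = s (z b))

/-- The second choices connect all symbols. -/
def Conn (s : V × N → V) : Prop :=
  ∀ Y : V → Prop, (∃ c, Y c) → (∃ c, ¬ Y c) → ∃ q : V × N, ¬ Y q.1 ∧ Y (s q)

theorem sens_up [Fintype V] [Nonempty V] [Fintype N] [Nonempty N] {s : V × N → V} (hs : Conn s)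
    (I : Finset (B → V)) (R : B → Bool) (b : B) :
    sens (up s I R) b ≤ Fintype.card (V × N) *
      (dens (up s I (Function.update R b true)) - dens (up s I (Function.update R b false))) := by
  unfold sens dens
  rw [← expect_sub_distrib, ← P325.expect_update (fun z =>
    ind (up s I (Function.update R b true) z) - ind (up s I (Function.update R b false) z)) b,
    mul_expect]
  refine expect_le_expect fun z _ => ?_
  rw [Fintype.card_mul_expect]
  set Y : V → Prop := fun c => ∃ y ∈ I, y b = c ∧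
    ∀ b', b' ≠ b → y b' = (z b').1 ∨ (R b' = true ∧ y b' = s (z b')) with hY
  have key : ∀ c q, up s I (Function.update R b c) (Function.update z b q) ↔
      Y q.1 ∨ (c = true ∧ Y (s q)) := by
    intro c q
    constructor
    · rintro ⟨y, hy, h⟩
      have h1 : ∀ b', b' ≠ b → y b' = (z b').1 ∨ (R b' = true ∧ y b' = s (z b')) :=
        fun b' hb' => by simpa [hb'] using h b'
      have h2 := h b
      simp only [Function.update_self] at h2
      exact h2.imp (fun a => ⟨y, hy, a, h1⟩) fun a => ⟨a.1, y, hy, a.2, h1⟩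
    · rintro (⟨y, hy, a, h⟩ | ⟨a', y, hy, a, h⟩) <;> refine ⟨y, hy, fun b' => ?_⟩ <;>
        by_cases hb' : b' = b
      · simp [hb', a]
      · simpa [hb'] using h b' hb'
      · simp [hb', a, a']
      · simpa [hb'] using h b' hb'
  have hnn : ∀ q ∈ (univ : Finset (V × N)),
      0 ≤ ind (up s I (Function.update R b true) (Function.update z b q)) -
        ind (up s I (Function.update R b false) (Function.update z b q)) := fun q _ =>
    sub_nonneg.2 (ind_mono fun h => (key _ _).2 (Or.inl (by simpa using (key _ _).1 h)))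
  by_cases h : ∃ q, ¬ (up s I R (Function.update z b q) ↔ up s I R z)
  · rw [ind_pos h]
    obtain ⟨q, hq⟩ := h
    have k1 := key (R b) q
    have k2 := key (R b) (z b)
    rw [Function.update_eq_self] at k1 k2
    rw [Function.update_eq_self] at k2
    rw [k1, k2] at hq
    have hc : ∃ c, Y c := by
      by_contra h
      push Not at h
      simp [h] at hq
    have hc' : ∃ c', ¬ Y c' := by
      by_contra h
      push Not at h
      simp [h] at hq
    obtain ⟨q₀, a1, a2⟩ := hs Y hc hc'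
    refine le_trans ?_ (single_le_sum hnn (mem_univ q₀))
    rw [ind_pos ((key _ _).2 (Or.inr ⟨rfl, a2⟩)),
      ind_neg fun h => by simpa [a1] using (key _ _).1 h]
    norm_num
  · rw [ind_neg h]
    exact sum_nonneg hnn

theorem dens_up [Fintype V] [AddCommGroup V] [Fintype N] [AddCommGroup N] (s : V × N → V)
    (I : Finset (B → V)) (R : B → Bool) :
    (I.card : ℝ) / Fintype.card (B → V) ≤ dens (up s I R) := by
  classical
  have h1 := P325.expect_hom (A := B → V × N) (B := B → V)
    ((AddMonoidHom.fst V N).compLeft B) (fun y => ⟨fun b => (y b, 0), rfl⟩) fun y => ind (y ∈ I)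
  have h2 : 𝔼 y, ind (y ∈ I) = (I.card : ℝ) / Fintype.card (B → V) := by
    rw [Fintype.expect_eq_sum_div_card]
    congr 1
    rw [sum_congr rfl fun y _ => (show ind (y ∈ I) = if y ∈ I then 1 else 0 by simp [ind])]
    simp
  rw [← h2, ← h1]
  exact expect_le_expect fun z _ => ind_mono fun h => ⟨_, h, fun b => Or.inl rfl⟩

omit [DecidableEq B] in
theorem exists_slots {B' : Type} [DecidableEq B'] {π : B → B'} {d : ℕ}
    (h : ∀ y, (univ.filter fun b => π b = y).card ≤ d) :
    ∃ ι : B → B' × Fin d, Function.Injective ι ∧ ∀ b, (ι b).1 = π b := by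
  have h1 : ∀ y, Nonempty ({b // π b = y} ↪ Fin d) := fun y =>
    Function.Embedding.nonempty_of_card_le (by simpa [Fintype.card_subtype] using h y)
  refine ⟨fun b => (π b, (h1 (π b)).some ⟨b, rfl⟩), fun b b' hb => ?_, fun _ => rfl⟩
  obtain ⟨a1, a2⟩ := Prod.ext_iff.1 hb
  have a3 : ∀ y (hy : π b = y), (h1 (π b)).some ⟨b, rfl⟩ = (h1 y).some ⟨b, hy⟩ := by
    rintro y rfl
    rfl
  exact congrArg Subtype.val ((h1 (π b')).some.injective ((a3 _ a1).symm.trans a2))

end

/-- All choices on one side are joined to all choices on the other side. -/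
def Sep {V N : Type} {d : ℕ} (E : V → V → Prop) (s : V × N → V) (x y : Fin d → V × N) : Prop :=
  ∀ i j c c', (c = (x i).1 ∨ c = s (x i)) → (c' = (y j).1 ∨ c' = s (y j)) → E c c'

theorem long_code_fin {V N : Type} [Fintype V] [AddCommGroup V] [Fintype N] [AddCommGroup N]
    {E : V → V → Prop} {s : V × N → V} {d : ℕ} (hd : d ≤ 2)
    (φ : (Fin d → V × N) ≃ (Fin d → V × N)) (hφ : ∀ x, Sep E s x (φ x))
    {m : ℕ} {B B' : Type} [Fintype B] [DecidableEq B] [Fintype B']
    [DecidableEq B'] {π π' : B → B'} (hπ : ∀ y, (univ.filter fun b => π b = y).card ≤ d)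
    (hπ' : ∀ y, (univ.filter fun b => π' b = y).card ≤ d) {I I' : Finset (B → V)}
    {R R' : B → Bool} {J J' T T' : Finset B} {z₀ z₀' : B → V × N} (hJ : J.card ≤ m)
    (hJ' : J'.card ≤ m) (hT : J ⊆ T) (hT' : J' ⊆ T')
    (h : ∀ M : Finset B, M.card ≤ 2 * m → Disjoint M T →
      3 / 4 ≤ 𝔼 z, ind (∀ a, (∀ b, b ∉ M → a b = J.piecewise z₀ z b) → up s I R a))
    (h' : ∀ M : Finset B, M.card ≤ 2 * m → Disjoint M T' →
      3 / 4 ≤ 𝔼 z, ind (∀ a, (∀ b, b ∉ M → a b = J'.piecewise z₀' z b) → up s I' R' a))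
    (hI : ∀ x ∈ I, ∀ x' ∈ I', ∃ b b', π b = π' b' ∧ ¬ E (x b) (x' b')) :
    ∃ b ∈ T, ∃ b' ∈ T', π b = π' b' := by
  by_contra hc
  push Not at hc
  obtain ⟨ι, hι, e⟩ := exists_slots hπ
  obtain ⟨ι', hι', e'⟩ := exists_slots hπ'
  have hN : ∀ (p p' : B → B') (K : Finset B), (∀ y, (univ.filter fun b => p b = y).card ≤ d) →
      K.card ≤ m → (univ.filter fun b => p b ∈ K.image p').card ≤ 2 * m := by
    intro p p' K hp hK
    refine (card_le_mul_card_image_of_maps_to (f := p) (t := K.image p')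
      (fun b hb => (mem_filter.1 hb).2) 2 fun y _ => le_trans (card_le_card fun b hb => ?_)
      ((hp y).trans hd)).trans (Nat.mul_le_mul_left 2 (card_image_le.trans hK))
    exact mem_filter.2 ⟨mem_univ _, (mem_filter.1 hb).2⟩
  set M₀ := univ.filter fun b => π b ∈ J'.image π' with hNd
  set M₀' := univ.filter fun b => π' b ∈ J.image π with hNd'
  have g := h M₀ (hN π π' J' hπ hJ') (disjoint_left.2 fun b hb hb' => by
    obtain ⟨c, hc1, hc2⟩ := mem_image.1 (mem_filter.1 hb).2
    exact hc b hb' c (hT' hc1) hc2.symm)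
  have g' := h' M₀' (hN π' π J hπ' hJ) (disjoint_left.2 fun b hb hb' => by
    obtain ⟨c, hc1, hc2⟩ := mem_image.1 (mem_filter.1 hb).2
    exact hc c (hT hc1) b hb' hc2)
  let Ψ : (B' × Fin d → V × N) ≃ (B' × Fin d → V × N) :=
    ((Equiv.curry _ _ _).trans (Equiv.piCongrRight fun _ => φ)).trans (Equiv.curry _ _ _).symm
  have hΨ : ∀ s p, Ψ s p = φ (fun i => s (p.1, i)) p.2 := fun _ _ => rfl
  rw [← expect_comp_inj hι] at g
  rw [← expect_comp_inj hι', ← Fintype.expect_equiv Ψ _ _ fun _ => rfl] at g'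
  obtain ⟨r, a, a'⟩ : ∃ r : B' × Fin d → V × N,
      (∀ a, (∀ b, b ∉ M₀ → a b = J.piecewise z₀ (fun b => r (ι b)) b) → up s I R a) ∧
      (∀ a, (∀ b, b ∉ M₀' → a b = J'.piecewise z₀' (fun b => Ψ r (ι' b)) b) → up s I' R' a) := by
    by_contra hs
    have h1 := add_le_add g g'
    rw [← expect_add_distrib] at h1
    refine absurd (h1.trans (expect_le (a := 1) univ_nonempty fun s _ => ?_)) (by norm_num)
    rcases not_and_or.1 (not_exists.1 hs s) with h2 | h2 <;> rw [ind_neg h2] <;>
      simp [ind_le_one]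
  have how : ∀ (κ : B → B' × Fin d) (K : Finset B) (z : B → V × N)
      (r : B' × Fin d → V × N), Function.Injective κ →
      ∃ w : B' × Fin d → V × N, (∀ b, w (κ b) = K.piecewise z (fun b => r (κ b)) b) ∧
        ∀ p, (∀ b ∈ K, (κ b).1 ≠ p.1) → w p = r p := by
    intro κ K z r hκ
    refine ⟨Function.extend κ (K.piecewise z fun b => r (κ b)) r,
      fun b => hκ.extend_apply _ _ b, fun p hp => ?_⟩
    by_cases h1 : ∃ b, κ b = p
    · obtain ⟨b, rfl⟩ := h1
      rw [hκ.extend_apply, piecewise_eq_of_notMem _ _ _ fun hb => hp b hb rfl]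
    · exact Function.extend_apply' _ _ _ h1
  obtain ⟨w, w1, w2⟩ := how ι J z₀ r hι
  obtain ⟨w', w1', w2'⟩ := how ι' J' z₀' (Ψ r) hι'
  let L : B' → Fin d → V × N := fun u =>
    if u ∈ J'.image π' then φ.symm fun i => w' (u, i) else fun i => w (u, i)
  let M : B' → Fin d → V × N := fun u =>
    if u ∈ J.image π then φ fun i => w (u, i) else fun i => w' (u, i)
  have hLM : ∀ u, Sep E s (L u) (M u) := by
    intro u
    by_cases h1 : u ∈ J'.image π' <;> by_cases h2 : u ∈ J.image π
    · obtain ⟨b, b1, b2⟩ := mem_image.1 h2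
      obtain ⟨c, c1, c2⟩ := mem_image.1 h1
      exact absurd (b2.trans c2.symm) (hc b (hT b1) c (hT' c1))
    · simpa only [L, M, if_pos h1, if_neg h2, Equiv.apply_symm_apply] using
        hφ (φ.symm fun i => w' (u, i))
    · simpa only [L, M, if_neg h1, if_pos h2] using hφ fun i => w (u, i)
    · have e1 : (fun i => w (u, i)) = fun i => r (u, i) := funext fun i =>
        w2 _ fun b hb hu => h2 (mem_image.2 ⟨b, hb, (e b).symm.trans hu⟩)
      have e2 : (fun i => w' (u, i)) = φ fun i => r (u, i) := funext fun i =>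
        (w2' _ fun b hb hu => h1 (mem_image.2 ⟨b, hb, (e' b).symm.trans hu⟩)).trans (hΨ _ _)
      simpa only [L, M, if_neg h1, if_neg h2, e1, e2] using hφ fun i => r (u, i)
  obtain ⟨y, y1, y2⟩ := a (fun b => L (π b) (ι b).2) fun b hb => by
    have h1 : π b ∉ J'.image π' := fun h1 => hb (mem_filter.2 ⟨mem_univ _, h1⟩)
    simp only [L, if_neg h1]
    rw [← e b]
    exact w1 b
  obtain ⟨y', y1', y2'⟩ := a' (fun b => M (π' b) (ι' b).2) fun b hb => by
    have h1 : π' b ∉ J.image π := fun h1 => hb (mem_filter.2 ⟨mem_univ _, h1⟩)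
    simp only [M, if_neg h1]
    rw [← e' b]
    exact w1' b
  obtain ⟨b, b', c1, c2⟩ := hI y y1 y' y1'
  refine c2 (hLM (π b) (ι b).2 (ι' b').2 (y b) (y' b') ((y2 b).imp id fun h => h.2) ?_)
  rw [c1]
  exact (y2' b').imp id fun h => h.2

/-- The long code lemma from connected second choices with a separating matching. -/
theorem long_code_of {V N κ : Type} [Fintype V] [AddCommGroup V] [Fintype N] [AddCommGroup N]
    [Fintype κ] [DecidableEq κ] (e : V × N ≃ (κ → ZMod 2))
    {E : V → V → Prop} {s : V × N → V} (hs : Conn s) {d : ℕ} (hd : d ≤ 2)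
    (φ : (Fin d → V × N) ≃ (Fin d → V × N)) (hφ : ∀ x, Sep E s x (φ x)) : LongCode V E d := by
  intro ε hε
  obtain ⟨m, t, h⟩ := exists_robust_core (V × N) e hε
    (K := Fintype.card (V × N)) (by exact_mod_cast Fintype.card_pos)
  refine ⟨t, fun B _ _ => ?_⟩
  have h1 : ∀ I : Finset (B → V), ∃ T : Finset B, T.card ≤ t ∧
      (ε * Fintype.card (B → V) ≤ I.card → ∃ (R : B → Bool) (J : Finset B)
        (z₀ : B → V × N), J.card ≤ m ∧ J ⊆ T ∧ ∀ M : Finset B, M.card ≤ 2 * m →
          Disjoint M T →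
          3 / 4 ≤ 𝔼 z, ind (∀ a, (∀ b, b ∉ M → a b = J.piecewise z₀ z b) → up s I R a)) := by
    intro I
    by_cases hI : ε * Fintype.card (B → V) ≤ I.card
    · obtain ⟨R, hR⟩ := russo (fun R => dens (up s I R)) (fun _ => dens_nonneg _)
        fun _ => dens_le_one _
      obtain ⟨J, T, z₀, a1, a2, a3, a4⟩ := h B (up s I R)
        (le_trans ((le_div_iff₀ (by exact_mod_cast Fintype.card_pos)).2 hI) (dens_up s I R)) (by
          refine (sum_le_sum fun b _ => sens_up hs I R b).trans ?_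
          rw [← mul_sum]
          exact mul_le_of_le_one_right (Nat.cast_nonneg _) hR)
      exact ⟨T, a3, fun _ => ⟨R, J, z₀, a1, a2, a4⟩⟩
    · exact ⟨∅, Nat.zero_le _, fun h => absurd h hI⟩
  choose T hT hT' using h1
  refine ⟨T, hT, fun B' _ π π' hπ hπ' I I' hI hI' hII => ?_⟩
  obtain ⟨R, J, z₀, a1, a2, a3⟩ := hT' I hI
  obtain ⟨R', J', z₀', a1', a2', a3'⟩ := hT' I' hI'
  let S : Finset B' := univ.image π ∪ univ.image π'
  let p : B → S := fun b => ⟨π b, mem_union_left _ (mem_image_of_mem _ (mem_univ b))⟩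
  let p' : B → S := fun b => ⟨π' b, mem_union_right _ (mem_image_of_mem _ (mem_univ b))⟩
  obtain ⟨b, b1, b', b2, b3⟩ := long_code_fin hd φ hφ (π := p) (π' := p')
    (fun y => by simpa only [p, Subtype.ext_iff] using hπ y.1)
    (fun y => by simpa only [p', Subtype.ext_iff] using hπ' y.1) a1 a1' a2 a2' a3 a3'
    fun x hx x' hx' => by simpa only [p, p', Subtype.ext_iff] using hII x hx x' hx'
  exact ⟨b, b1, b', b2, congrArg Subtype.val b3⟩

/-! ### Matchings from a table of numbers -/

theorem exists_equiv_of_table {X K : Type} [Fintype X] [Fintype K] [DecidableEq K] (τ : X → K)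
    (M : K → K → ℕ) (hr : ∀ k, ∑ k', M k k' = (univ.filter fun x => τ x = k).card)
    (hc : ∀ k', ∑ k, M k k' = (univ.filter fun x => τ x = k').card) :
    ∃ φ : X ≃ X, ∀ x, 0 < M (τ x) (τ (φ x)) := by
  have h1 : ∀ M : K → K → ℕ, (∀ k, ∑ k', M k k' = (univ.filter fun x => τ x = k).card) →
      ∃ F : X ≃ Σ k, Σ k', Fin (M k k'), ∀ x, (F x).1 = τ x := by
    intro M h
    have e : ∀ k, {x // τ x = k} ≃ Σ k', Fin (M k k') := fun k =>
      Fintype.equivOfCardEq (by simp [Fintype.card_subtype, h k])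
    exact ⟨(Equiv.sigmaFiberEquiv τ).symm.trans (Equiv.sigmaCongrRight e), fun x => rfl⟩
  obtain ⟨F, hF⟩ := h1 M hr
  obtain ⟨F', hF'⟩ := h1 (fun k k' => M k' k) hc
  let sw : (Σ k, Σ k', Fin (M k k')) ≃ Σ k, Σ k', Fin (M k' k) :=
    ⟨fun p => ⟨p.2.1, p.1, p.2.2⟩, fun p => ⟨p.2.1, p.1, p.2.2⟩, fun _ => rfl, fun _ => rfl⟩
  refine ⟨(F.trans sw).trans F'.symm, fun x => ?_⟩
  have a1 : τ (((F.trans sw).trans F'.symm) x) = (F x).2.1 := by
    rw [← hF']
    simp [sw]
  rw [a1, ← hF x]
  exact (F x).2.2.pos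

theorem card_pair_fibre {Γ K : Type} [Fintype Γ] [Fintype K] [DecidableEq K] (σ : Γ → K)
    (u : K → K → K) (c : K → ℕ) (hc : ∀ a, c a = (univ.filter fun z => σ z = a).card) (k : K) :
    (univ.filter fun x : Fin 2 → Γ => u (σ (x 0)) (σ (x 1)) = k).card =
      ∑ a, ∑ b, if u a b = k then c a * c b else 0 := by
  have h1 : ∀ f : K → ℕ, ∑ z, f (σ z) = ∑ a, c a * f a := by
    intro f
    rw [← sum_fiberwise_of_maps_to (s := univ) (t := univ) (g := σ) fun _ _ => mem_univ _]
    refine sum_congr rfl fun a _ => ?_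
    rw [hc, sum_congr rfl (g := fun _ => f a) fun z hz => by rw [(mem_filter.1 hz).2]]
    simp
  rw [card_filter, Fintype.sum_equiv (finTwoArrowEquiv Γ)
    (fun x => if u (σ (x 0)) (σ (x 1)) = k then 1 else 0)
    (fun p => if u (σ p.1) (σ p.2) = k then 1 else 0) fun _ => rfl, Fintype.sum_prod_type,
    h1 fun a => ∑ z', if u a (σ z') = k then 1 else 0]
  refine sum_congr rfl fun a _ => ?_
  rw [h1 fun b => if u a b = k then 1 else 0, mul_sum]
  refine sum_congr rfl fun b _ => ?_
  split_ifs <;> simp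

/-! ### Four symbols -/

/-- The second choice: rarely the symbol `0`, and rarely another symbol for the symbol `0`. -/
def sec4 (z : Fin 4 × Fin 32) : Fin 4 :=
  if z.1 = 0 then (if z.2.val < 4 then Fin.ofNat 4 z.2.val else 0) else if z.2 = 0 then 0 else z.1

/-- The set of the two choices, as a binary number. -/
def msk4 (z : Fin 4 × Fin 32) : Fin 16 := Fin.ofNat 16 (2 ^ z.1.val ||| 2 ^ (sec4 z).val)

/-- The union of two sets. -/
def uni4 (a b : Fin 16) : Fin 16 := Fin.ofNat 16 (a.val ||| b.val)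

/-- The number of states with a given set. -/
def cnt4 : Fin 16 → ℕ := ![0, 29, 31, 2, 31, 2, 0, 0, 31, 2, 0, 0, 0, 0, 0, 0]

/-- One half of the table of the matching. -/
def half4 (a b : ℕ) : ℕ :=
  if (a, b) ∈ [(7, 8), (11, 4), (13, 2)] then 256
  else if (a, b) ∈ [(3, 12), (5, 10), (9, 6)] then 1922
  else if (a, b) ∈ [(3, 4), (3, 8), (5, 2), (5, 8), (9, 2), (9, 4)] then 60
  else if (a, b) = (1, 2) then 281
  else if (a, b) ∈ [(1, 4), (1, 8)] then 280
  else if (a, b) ∈ [(2, 4), (2, 8)] then 152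
  else if (a, b) = (4, 8) then 153 else 0

/-- The table of the matching. -/
def tab4 (a b : Fin 16) : ℕ := half4 a b + half4 b a

theorem cnt4_eq : ∀ a, cnt4 a = (univ.filter fun z => msk4 z = a).card := by decide +kernel

theorem tab4_row : ∀ k, ∑ k', tab4 k k' =
    ∑ a, ∑ b, if uni4 a b = k then cnt4 a * cnt4 b else 0 := by decide +kernel

theorem tab4_sep : ∀ k k', 0 < tab4 k k' → ∀ c : Fin 4,
    ¬ (k.val.testBit c = true ∧ k'.val.testBit c = true) := by decide +kernel

theorem msk4_mem : ∀ z : Fin 4 × Fin 32,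
    (msk4 z).val.testBit z.1 = true ∧ (msk4 z).val.testBit (sec4 z) = true := by decide +kernel

theorem uni4_mem : ∀ a b : Fin 16, ∀ c : Fin 4, a.val.testBit c = true →
    (uni4 a b).val.testBit c = true ∧ (uni4 b a).val.testBit c = true := by decide +kernel

theorem conn4 : Conn sec4 := by
  rintro Y ⟨c, hc⟩ ⟨c', hc'⟩
  by_cases h : Y 0
  · refine ⟨(c', 0), hc', ?_⟩
    have : ∀ c : Fin 4, sec4 (c, 0) = 0 := by decide
    rwa [this]
  · refine ⟨(0, c.castLE (by norm_num)), h, ?_⟩
    have : ∀ c : Fin 4, sec4 (0, c.castLE (by norm_num)) = c := by decide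
    rwa [this]

/-- The long code lemma for four symbols and fibres of size two. -/
theorem long_code_four : LongCode (Fin 4) (fun a b => a ≠ b) 2 := by
  have hr : ∀ k, ∑ k', tab4 k k' = (univ.filter fun x : Fin 2 → Fin 4 × Fin 32 =>
      uni4 (msk4 (x 0)) (msk4 (x 1)) = k).card := fun k =>
    (tab4_row k).trans (card_pair_fibre msk4 uni4 cnt4 cnt4_eq k).symm
  obtain ⟨φ, hφ⟩ := exists_equiv_of_table
    (fun x : Fin 2 → Fin 4 × Fin 32 => uni4 (msk4 (x 0)) (msk4 (x 1))) tab4 hr fun k =>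
      (sum_congr rfl fun k' _ => add_comm _ _).trans (hr k)
  have hm : ∀ (x : Fin 2 → Fin 4 × Fin 32) i c, (c = (x i).1 ∨ c = sec4 (x i)) →
      (uni4 (msk4 (x 0)) (msk4 (x 1))).val.testBit c = true := by
    intro x i c hc
    have h1 : (msk4 (x i)).val.testBit c = true := by
      rcases hc with rfl | rfl
      exacts [(msk4_mem _).1, (msk4_mem _).2]
    revert h1
    refine Fin.cases (fun h => (uni4_mem _ _ _ h).1) (fun i => ?_) i
    refine Fin.cases (fun h => (uni4_mem _ _ _ h).2) (fun i => i.elim0) i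
  refine long_code_of (κ := Fin 7) (Fintype.equivOfCardEq (by simp)) conn4 le_rfl φ
    fun x i j c c' h h' e => ?_
  exact tab4_sep _ _ (hφ x) c ⟨hm x i c h, e ▸ hm (φ x) j c' h'⟩

end Vale.Agent.N342
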